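import Vale.Agent.P207.SPH.H40.Avg
import Vale.Agent.P207.SPH.H234.Eig
import Vale.Agent.P207.SPH.H752.Ky
import Vale.Agent.P207.SPH.H5.Mat

/-!
# P207, SPH: the trace of the square root of `K`

`qK K` is the least value of `∑ i, √(K_ii)` over the orthonormal bases (the trace of the square root
of a nonnegative `K`). Along every orbit `∫ qK ≤ ∫ tr U + C`.
-/

open Matrix MeasureTheory Set Filter Topology

noncomputable section

namespace Vale.Agent.P207.SPH.H453

variable {m : ℕ} {X : Type} [TopologicalSpace X]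

/-- the least value of `∑ i, √(K_ii)` over the orthonormal bases -/
def qK (K : Mt m) : ℝ :=
  sInf {x | ∃ O : Mt m, Oᵀ * O = 1 ∧ x = ∑ i, Real.sqrt ((Oᵀ * K * O) i i)}

theorem qK_le (K : Mt m) {O : Mt m} (hO : Oᵀ * O = 1) :
    qK K ≤ ∑ i, Real.sqrt ((Oᵀ * K * O) i i) := by
  refine csInf_le ⟨0, ?_⟩ ⟨O, hO, rfl⟩
  rintro _ ⟨O, -, rfl⟩
  exact Finset.sum_nonneg fun i _ => Real.sqrt_nonneg _

theorem qK_nonneg (K : Mt m) : 0 ≤ qK K := by
  refine Real.sInf_nonneg ?_
  rintro _ ⟨O, -, rfl⟩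
  exact Finset.sum_nonneg fun i _ => Real.sqrt_nonneg _

theorem le_qK {K : Mt m} {c : ℝ}
    (h : ∀ O : Mt m, Oᵀ * O = 1 → c ≤ ∑ i, Real.sqrt ((Oᵀ * K * O) i i)) : c ≤ qK K := by
  refine le_csInf ⟨_, 1, by rw [Matrix.transpose_one, Matrix.one_mul], rfl⟩ ?_
  rintro _ ⟨O, hO, rfl⟩
  exact h O hO

theorem continuous_qK : Continuous (qK (m := m)) := by
  have h1 : (qK (m := m)) = fun K => sInf ((fun O : Mt m =>
      ∑ i, Real.sqrt ((Oᵀ * K * O) i i)) '' H752.St m m) := by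
    funext K
    unfold qK
    congr 1
    ext x
    constructor
    · rintro ⟨O, hO, rfl⟩
      exact ⟨O, hO, rfl⟩
    · rintro ⟨O, hO, rfl⟩
      exact ⟨O, hO, rfl⟩
  rw [h1]
  refine (H752.isCompact_St m m).continuous_sInf
    (f := fun (K : Mt m) (O : Mt m) => ∑ i, Real.sqrt ((Oᵀ * K * O) i i)) ?_
  have h2 : Continuous fun p : Mt m × Mt m => p.2ᵀ * p.1 * p.2 :=
    (continuous_snd.matrix_transpose.matrix_mul continuous_fst).matrix_mul continuous_snd
  have h3 : Continuous fun p : Mt m × Mt m => ∑ i, Real.sqrt ((p.2ᵀ * p.1 * p.2) i i) :=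
    continuous_finsetSum _ fun i _ => Real.continuous_sqrt.comp (h2.matrix_elem i i)
  exact h3

/-- the arithmetic and geometric means -/
theorem two_sqrt_le {e k : ℝ} (he : 0 < e) (hk : 0 ≤ k) : 2 * Real.sqrt k ≤ e + k * e⁻¹ := by
  have h1 := Real.sq_sqrt hk
  have h2 : e + k * e⁻¹ - 2 * Real.sqrt k = (e - Real.sqrt k) ^ 2 * e⁻¹ := by
    field_simp
    linear_combination (-1 : ℝ) * h1
  have h3 : 0 ≤ (e - Real.sqrt k) ^ 2 * e⁻¹ := mul_nonneg (sq_nonneg _) (inv_pos.2 he).le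
  linarith

/-- the entries of `Oᵀ K O` -/
theorem conj_entry (K O : Mt m) (i : Fin m) :
    (Oᵀ * K * O) i i = (fun l => O l i) ⬝ᵥ (K *ᵥ fun l => O l i) := by
  rw [Matrix.mul_assoc, Matrix.mul_apply]
  refine Finset.sum_congr rfl fun l _ => ?_
  rw [Matrix.transpose_apply, Matrix.mul_apply]
  rfl

/-- **the pointwise inequality** -/
theorem two_qK_le {K U : Mt m} (hU : Uᵀ = U) {a : ℝ} (ha : 0 < a)
    (hlo : ∀ x, a * (x ⬝ᵥ x) ≤ x ⬝ᵥ (U *ᵥ x)) (hK : ∀ x, 0 ≤ x ⬝ᵥ (K *ᵥ x)) :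
    2 * qK K ≤ U.trace + (K * U⁻¹).trace := by
  obtain ⟨O, e, -, h1, h2, h3⟩ := H234.diag U hU
  have h4 : Oᵀ * U * O = diagonal e := by
    rw [h3]
    calc Oᵀ * (O * diagonal e * Oᵀ) * O = (Oᵀ * O) * diagonal e * (Oᵀ * O) := by
          simp only [Matrix.mul_assoc]
      _ = _ := by rw [h1, Matrix.one_mul, Matrix.mul_one]
  have he : ∀ i, 0 < e i := by
    intro i
    have h5 := hlo fun l => O l i
    rw [← conj_entry, h4, Matrix.diagonal_apply_eq] at h5
    have h6 : (fun l => O l i) ⬝ᵥ (fun l => O l i) = 1 := by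
      have h7 := congrFun (congrFun h1 i) i
      rw [Matrix.mul_apply, Matrix.one_apply_eq] at h7
      exact h7
    rw [h6, mul_one] at h5
    exact lt_of_lt_of_le ha h5
  have h5 : U * (O * diagonal (fun i => (e i)⁻¹) * Oᵀ) = 1 := by
    rw [h3]
    calc O * diagonal e * Oᵀ * (O * diagonal (fun i => (e i)⁻¹) * Oᵀ)
        = O * (diagonal e * (Oᵀ * O) * diagonal fun i => (e i)⁻¹) * Oᵀ := by
          simp only [Matrix.mul_assoc]
      _ = 1 := by
          rw [h1, Matrix.mul_one, Matrix.diagonal_mul_diagonal]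
          have h6 : (fun i => e i * (e i)⁻¹) = fun _ => (1 : ℝ) := by
            funext i
            exact mul_inv_cancel₀ (he i).ne'
          rw [h6, Matrix.diagonal_one, Matrix.mul_one, h2]
  have h6 : U⁻¹ = O * diagonal (fun i => (e i)⁻¹) * Oᵀ := Matrix.inv_eq_right_inv h5
  have h7 : (K * U⁻¹).trace = ∑ i, (Oᵀ * K * O) i i * (e i)⁻¹ := by
    rw [h6]
    have h8 : K * (O * diagonal (fun i => (e i)⁻¹) * Oᵀ) =
        (K * O * diagonal (fun i => (e i)⁻¹)) * Oᵀ := by simp only [Matrix.mul_assoc]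
    rw [h8, Matrix.trace_mul_comm]
    have h9 : Oᵀ * (K * O * diagonal fun i => (e i)⁻¹) =
        (Oᵀ * K * O) * diagonal fun i => (e i)⁻¹ := by simp only [Matrix.mul_assoc]
    rw [h9]
    unfold Matrix.trace
    refine Finset.sum_congr rfl fun i _ => ?_
    rw [Matrix.diag_apply, Matrix.mul_diagonal]
  have h8 : U.trace = ∑ i, e i := by
    rw [h3, Matrix.trace_mul_comm, ← Matrix.mul_assoc, h1, Matrix.one_mul, Matrix.trace_diagonal]
  have h9 := qK_le K h1
  rw [h7, h8, ← Finset.sum_add_distrib]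
  calc 2 * qK K ≤ 2 * ∑ i, Real.sqrt ((Oᵀ * K * O) i i) :=
        mul_le_mul_of_nonneg_left h9 zero_le_two
    _ = ∑ i, 2 * Real.sqrt ((Oᵀ * K * O) i i) := by rw [Finset.mul_sum]
    _ ≤ _ := Finset.sum_le_sum fun i _ => two_sqrt_le (he i) (by
        rw [conj_entry]
        exact hK _)

theorem detU_pos (D : Sys m X) (f : X) : 0 < (D.U f).det :=
  (Matrix.PosDef.of_dotProduct_mulVec_pos (by
    rw [Matrix.IsHermitian, conjTranspose_eq_transpose_of_trivial, D.sU]) fun {x} hx => by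
    have h1 := D.loU f x
    have h2 : 0 < x ⬝ᵥ x := by
      have := Matrix.dotProduct_star_self_pos_iff (v := x) |>.2 hx
      simpa using this
    rw [star_trivial]
    nlinarith [D.a_pos]).det_pos

/-- `(log det U)' = tr (K U⁻¹) - tr U` along the orbits -/
theorem hasDerivAt_logdetU (D : Sys m X) (f : X) (t : ℝ) :
    HasDerivAt (fun s => Real.log (D.U (D.Φ s f)).det)
      ((D.K (D.Φ t f) * (D.U (D.Φ t f))⁻¹).trace - (D.U (D.Φ t f)).trace) t := by
  have h0 := (detU_pos D (D.Φ t f)).ne'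
  refine (H5.dlogdet (D.dU f t) h0).congr_deriv ?_
  rw [Matrix.sub_mul, Matrix.trace_sub, Matrix.mul_assoc (D.U (D.Φ t f)),
    Matrix.mul_nonsing_inv _ (isUnit_iff_ne_zero.2 h0), Matrix.mul_one]

/-- **the integrated inequality**: `∫ qK ≤ ∫ tr U + C` on every orbit -/
theorem bw [CompactSpace X] (D : Sys m X) (hK : ∀ f x, 0 ≤ x ⬝ᵥ (D.K f *ᵥ x)) :
    ∃ C, ∀ f T, 0 ≤ T → ∫ s in (0 : ℝ)..T, qK (D.K (D.Φ s f)) ≤
      (∫ s in (0 : ℝ)..T, (D.U (D.Φ s f)).trace) + C := by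
  have hlc : Continuous fun f => Real.log (D.U f).det :=
    D.cU.matrix_det.log fun f => (detU_pos D f).ne'
  obtain ⟨C, hC⟩ := exists_bound hlc
  refine ⟨C, fun f T hT => ?_⟩
  have horb : Continuous fun s => D.Φ s f := D.cont.comp (Continuous.prodMk_left f)
  have hq : Continuous fun s => qK (D.K (D.Φ s f)) := continuous_qK.comp (D.cK.comp horb)
  have htr : Continuous fun s => (D.U (D.Φ s f)).trace := (D.cU.comp horb).matrix_trace
  have hinv : Continuous fun s => (D.U (D.Φ s f))⁻¹ := by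
    simp only [Matrix.inv_def, Ring.inverse_eq_inv']
    exact (((D.cU.comp horb).matrix_det).inv₀ fun s => (detU_pos D _).ne').smul
      (D.cU.comp horb).matrix_adjugate
  have hKU : Continuous fun s => (D.K (D.Φ s f) * (D.U (D.Φ s f))⁻¹).trace :=
    ((D.cK.comp horb).matrix_mul hinv).matrix_trace
  have h1 := intervalIntegral.integral_eq_sub_of_hasDerivAt (a := 0) (b := T)
    (fun t _ => hasDerivAt_logdetU D f t) ((hKU.sub htr).intervalIntegrable _ _)
  rw [intervalIntegral.integral_sub (hKU.intervalIntegrable _ _) (htr.intervalIntegrable _ _)] at h1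
  have h2 : ∫ s in (0 : ℝ)..T, 2 * qK (D.K (D.Φ s f)) ≤
      ∫ s in (0 : ℝ)..T, ((D.U (D.Φ s f)).trace +
        (D.K (D.Φ s f) * (D.U (D.Φ s f))⁻¹).trace) := by
    refine intervalIntegral.integral_mono_on hT ((continuous_const.mul hq).intervalIntegrable _ _)
      ((htr.add hKU).intervalIntegrable _ _) fun s _ => ?_
    exact two_qK_le (D.sU _) D.a_pos (D.loU _) (hK _)
  rw [intervalIntegral.integral_const_mul,
    intervalIntegral.integral_add (htr.intervalIntegrable _ _) (hKU.intervalIntegrable _ _)] at h2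
  have h3 := abs_le.1 (hC (D.Φ T f))
  have h4 := abs_le.1 (hC (D.Φ 0 f))
  linarith [h3.2, h4.1]

end Vale.Agent.P207.SPH.H453
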