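import Vale.Agent.P207.H118.EDefs

/-!
# P207: the trace of the square root of the Jacobi operator
-/

open scoped Manifold ContDiff ENNReal
open Bundle MeasureTheory Set Filter

noncomputable section

namespace Vale.Agent.P207F

open Vale.Agent.P255 (RMetric innerAt coefIn Gam Riem IsGeo)

/-- The trace of the square root of the operator `w ↦ -R(w,v)v` on the orthogonal complement of the
unit vector `v`: the least value of `∑ √(-K(v,w i))` over the orthonormal bases `w` of the
orthogonal complement of `v` (components in the chart at the base point). -/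
def sqrtCurv {n : ℕ} {M : Type} [TopologicalSpace M] [ChartedSpace (EV n) M]
    [IsManifold 𝓘(ℝ, EV n) ∞ M] (g : RMetric (EV n) M) (p : UT g) : ℝ :=
  sInf {x | ∃ w : Fin (n - 1) → EV n,
    (∀ i j, coefIn g p.pt (chartAt (EV n) p.pt p.pt) (w i) (w j) = if i = j then 1 else 0) ∧
    (∀ i, coefIn g p.pt (chartAt (EV n) p.pt p.pt) (w i) p.vec = 0) ∧
    x = ∑ i, Real.sqrt (-(coefIn g p.pt (chartAt (EV n) p.pt p.pt)
      (Riem (coefIn g p.pt) (chartAt (EV n) p.pt p.pt) (w i) p.vec p.vec) (w i)))}

end Vale.Agent.P207F
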