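import Vale.Agent.P207.SPH.H40.Vol
import Vale.Agent.P207.SPH.H453.Bw
import Vale.Agent.P207.SPH.H453.PubQ
import Vale.Agent.P207.N4.Geo.RicAv

/-!
# P207, SPH: `sqrtCurv` in frames
-/

open scoped Manifold ContDiff ENNReal Topology Matrix
open Bundle MeasureTheory Set Filter

set_option maxSynthPendingDepth 3
set_option linter.unusedSectionVars false

noncomputable section

namespace Vale.Agent.P207.SPH.H453

open Vale.Agent.P255 (RMetric innerAt coefIn Gam Riem IsGeo)
open Vale.Agent.P207 Vale.Agent.P207.Q Vale.Agent.P207.Q.H130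
open Vale.Agent.P207.Q.H717 (secc)

variable {m : ℕ} {M : Type} [TopologicalSpace M] [ChartedSpace (EV (m + 1)) M]
  [IsManifold 𝓘(ℝ, EV (m + 1)) ∞ M] [CompactSpace M] [T2Space M] {g : RMetric (EV (m + 1)) M}

theorem coefIn_pt (f : Fr g) (v w : EV (m + 1)) :
    coefIn g f.pt (chartAt (EV (m + 1)) f.pt f.pt) v w = innerB g f.pt v w :=
  H717.coefIn_self' (g := g) f.pt v w

/-- **`sqrtCurv` in frames** -/
theorem sqrtCurv_frame (f : Fr g) : P207F.sqrtCurv g (f.ut 0) = qK (Km g f) := by
  have hsec : ∀ O : Mt m, ∀ i, coefIn g f.pt (chartAt (EV (m + 1)) f.pt f.pt)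
      (Riem (coefIn g f.pt) (chartAt (EV (m + 1)) f.pt f.pt)
        (∑ l : Fin m, O l i • f.e l.succ : EV (m + 1)) (f.e 0) (f.e 0))
        (∑ l : Fin m, O l i • f.e l.succ : EV (m + 1)) = -((Oᵀ * Km g f * O) i i) := by
    intro O i
    have h1 := H832.N4.Km_quad f (fun l => O l i)
    rw [conj_entry, h1, neg_neg]
    rfl
  unfold P207F.sqrtCurv qK
  congr 1
  ext x
  constructor
  · rintro ⟨w, hw1, hw2, hx⟩
    set O : Mt m := Matrix.of fun j i => innerB g f.pt (w i) (f.e j.succ) with hO
    have hexp : ∀ i : Fin m, w i = ∑ j : Fin m, O j i • f.e j.succ := fun i =>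
      expand_perp f (w i) (by
        rw [← coefIn_pt]
        exact hw2 i)
    refine ⟨O, ?_, ?_⟩
    · ext i j
      have h : coefIn g f.pt (chartAt (EV (m + 1)) f.pt f.pt) (w i) (w j) =
        if i = j then 1 else 0 := hw1 i j
      rw [coefIn_pt, hexp i, hexp j, inner_comb] at h
      rw [Matrix.mul_apply, Matrix.one_apply]
      exact h
    · rw [hx]
      refine Finset.sum_congr rfl fun i _ => ?_
      have h := hsec O i
      rw [← hexp i] at h
      exact (congrArg (fun y : ℝ => Real.sqrt (-y)) h).trans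
        (congrArg Real.sqrt (neg_neg ((Oᵀ * Km g f * O) i i)))
  · rintro ⟨O, hO, hx⟩
    refine ⟨fun i => ∑ l : Fin m, O l i • f.e l.succ, fun i j => ?_, fun i => ?_, ?_⟩
    · have h := congrFun (congrFun hO i) j
      rw [Matrix.mul_apply, Matrix.one_apply] at h
      rw [← h]
      exact (coefIn_pt f _ _).trans (inner_comb f _ _)
    · exact (coefIn_pt f _ _).trans (H832.N4.inner_sum_zero f (fun l => O l i))
    · rw [hx]
      refine Finset.sum_congr rfl fun i _ => ?_
      exact ((congrArg (fun y : ℝ => Real.sqrt (-y)) (hsec O i)).trans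
        (congrArg Real.sqrt (neg_neg ((Oᵀ * Km g f * O) i i)))).symm

end Vale.Agent.P207.SPH.H453
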