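import Vale.Agent.P207.SPH.H40.Main2
import Vale.Agent.P207.SPH.H234.Eig

/-!
# P207, SPH, second wave: the sum of the squares of the exponents

`∑ χ i ^ 2 ≤ ∫ tr K`, with equality if and only if `K` is constant along the orbits.
-/

open Matrix MeasureTheory Set Filter Topology

noncomputable section

namespace Vale.Agent.P207.SPH.H453

variable {m : ℕ} {X : Type} [TopologicalSpace X]

/-- Abel summation -/
theorem abel_psum {c d : Fin m → ℝ} (hc : Antitone c) (hd : ∀ k ≤ m, 0 ≤ psum k d) :
    ∀ k ≤ m, ∀ y : ℝ, (∀ i : Fin m, (i : ℕ) < k → y ≤ c i) →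
      y * psum k d ≤ psum k fun i => c i * d i := by
  intro k
  induction k with
  | zero =>
    intro _ y _
    unfold psum
    simp
  | succ k ih =>
    intro hk y hy
    have hkm : k < m := hk
    set i₀ : Fin m := ⟨k, hkm⟩ with hi₀
    have h1 := ih hkm.le (c i₀) (fun i hi => hc (show i ≤ i₀ from hi.le))
    have h2 := psum_succ (e := d) i₀
    have h3 := psum_succ (e := fun i => c i * d i) i₀
    have h4 : ((i₀ : Fin m) : ℕ) = k := rfl
    rw [h4] at h2 h3
    have h5 := hd (k + 1) hk
    have h6 := hy i₀ (Nat.lt_succ_self k)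
    have h7 : psum (k + 1) (fun i => c i * d i) = psum k (fun i => c i * d i) + c i₀ * d i₀ := by
      linarith
    have h8 : psum (k + 1) d = psum k d + d i₀ := by linarith
    rw [h7]
    calc y * psum (k + 1) d ≤ c i₀ * psum (k + 1) d := mul_le_mul_of_nonneg_right h6 h5
      _ = c i₀ * psum k d + c i₀ * d i₀ := by rw [h8]; ring
      _ ≤ _ := by linarith

theorem sum_mul_nonneg {c d : Fin m → ℝ} (hc : Antitone c) (hc0 : ∀ i, 0 ≤ c i)
    (hd : ∀ k ≤ m, 0 ≤ psum k d) : 0 ≤ ∑ i, c i * d i := by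
  have h1 := abel_psum hc hd m le_rfl 0 (fun i _ => hc0 i)
  rwa [zero_mul, psum_top] at h1

/-- the trace of the square is the sum of the squares of the eigenvalues -/
theorem trace_sq (D : Sys m X) (f : X) : (D.S f * D.S f).trace = ∑ i, D.ev i f ^ 2 := by
  obtain ⟨O, e, h1, h2, h3, h4⟩ := H234.eigD m (D.S f) (D.S_symm f)
  have he : ∀ i, D.ev i f = e i := by
    intro i
    unfold Sys.ev
    rw [h4 _ i.2, h4 _ i.2.le, psum_succ]
  simp only [he]
  have h5 : D.S f * D.S f = O * (diagonal e * diagonal e) * Oᵀ := by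
    rw [h3]
    calc O * diagonal e * Oᵀ * (O * diagonal e * Oᵀ)
        = O * diagonal e * (Oᵀ * O) * diagonal e * Oᵀ := by simp only [Matrix.mul_assoc]
      _ = _ := by rw [h1, Matrix.mul_one]; simp only [Matrix.mul_assoc]
  rw [h5, Matrix.trace_mul_comm, ← Matrix.mul_assoc, h1, Matrix.one_mul,
    Matrix.diagonal_mul_diagonal, Matrix.trace_diagonal]
  exact Finset.sum_congr rfl fun i _ => by ring

/-- the derivative of the trace -/
theorem hasDerivAt_trace {M : ℝ → Mt m} {M' : Mt m} {t : ℝ} (h : MD M M' t) :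
    HasDerivAt (fun s => (M s).trace) M'.trace t := by
  have h1 : HasDerivAt (fun s => ∑ i, M s i i) (∑ i, M' i i) t :=
    HasDerivAt.fun_sum fun i _ => h i i
  exact h1

/-- the integral of a derivative along the flow vanishes -/
theorem integral_deriv_zero [CompactSpace X] [MeasurableSpace X] [BorelSpace X] (μ : Measure X)
    [IsProbabilityMeasure μ] (D : Sys m X) (hμ : ∀ t, MeasurePreserving (D.Φ t) μ μ)
    {F G : X → ℝ} (hF : Continuous F) (hG : Continuous G)
    (hd : ∀ f t, HasDerivAt (fun s => F (D.Φ s f)) (G (D.Φ t f)) t) : ∫ f, G f ∂μ = 0 := by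
  have h1 := integral_flow_nonneg μ D hμ hG (zero_le_one (α := ℝ))
  have hcG : ∀ f, Continuous fun s => G (D.Φ s f) := fun f =>
    hG.comp (D.cont.comp (Continuous.prodMk_left f))
  have h2 : ∀ f, ∫ s in (0 : ℝ)..1, G (D.Φ s f) = F (D.Φ 1 f) - F f := by
    intro f
    have h3 := intervalIntegral.integral_eq_sub_of_hasDerivAt (a := 0) (b := 1)
      (fun x _ => hd f x) ((hcG f).intervalIntegrable _ _)
    rw [h3, D.zero]
  have hc1 : Continuous fun f => F (D.Φ 1 f) :=
    hF.comp (D.cont.comp (Continuous.prodMk_right 1))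
  have h4 : ∫ f, F (D.Φ 1 f) ∂μ = ∫ f, F f ∂μ := by
    have h2 := (hμ 1).map_eq
    conv_rhs => rw [← h2]
    exact (integral_map (hμ 1).measurable.aemeasurable hF.aestronglyMeasurable).symm
  simp only [h2] at h1
  rw [integral_sub (integrable_cont μ hc1) (integrable_cont μ hF), h4, sub_self, one_mul] at h1
  exact h1.symm

theorem cUU (D : Sys m X) : Continuous fun f => (D.U f * D.U f).trace :=
  (D.cU.mul D.cU).matrix_trace

theorem cVV (D : Sys m X) : Continuous fun f => (D.V f * D.V f).trace :=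
  (D.cV.mul D.cV).matrix_trace

theorem cKt (D : Sys m X) : Continuous fun f => (D.K f).trace := D.cK.matrix_trace

/-- `∫ tr U ^ 2 = ∫ tr K` -/
theorem integral_UU [CompactSpace X] [MeasurableSpace X] [BorelSpace X] (μ : Measure X)
    [IsProbabilityMeasure μ] (D : Sys m X) (hμ : ∀ t, MeasurePreserving (D.Φ t) μ μ) :
    ∫ f, (D.U f * D.U f).trace ∂μ = ∫ f, (D.K f).trace ∂μ := by
  have h1 := integral_deriv_zero μ D hμ (F := fun f => (D.U f).trace)
    (G := fun f => (D.K f).trace - (D.U f * D.U f).trace) D.cU.matrix_trace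
    ((cKt D).sub (cUU D)) (fun f t => (hasDerivAt_trace (D.dU f t)).congr_deriv (by
      rw [Matrix.trace_sub]))
  rw [integral_sub (integrable_cont μ (cKt D)) (integrable_cont μ (cUU D))] at h1
  linarith

/-- `∫ tr V ^ 2 = ∫ tr K` -/
theorem integral_VV [CompactSpace X] [MeasurableSpace X] [BorelSpace X] (μ : Measure X)
    [IsProbabilityMeasure μ] (D : Sys m X) (hμ : ∀ t, MeasurePreserving (D.Φ t) μ μ) :
    ∫ f, (D.V f * D.V f).trace ∂μ = ∫ f, (D.K f).trace ∂μ := by
  have h1 := integral_deriv_zero μ D hμ (F := fun f => (D.V f).trace)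
    (G := fun f => (D.V f * D.V f).trace - (D.K f).trace) D.cV.matrix_trace
    ((cVV D).sub (cKt D)) (fun f t => (hasDerivAt_trace (D.dV f t)).congr_deriv (by
      rw [Matrix.trace_sub]))
  rw [integral_sub (integrable_cont μ (cVV D)) (integrable_cont μ (cKt D))] at h1
  linarith

/-- `tr S ^ 2 ≤ 2 tr U ^ 2 + 2 tr V ^ 2` -/
theorem trace_SS_le (D : Sys m X) (f : X) : (D.S f * D.S f).trace ≤
    2 * (D.U f * D.U f).trace + 2 * (D.V f * D.V f).trace := by
  have h1 : 0 ≤ ((D.U f - D.V f) * (D.U f - D.V f)).trace := by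
    have h2 : (D.U f - D.V f)ᵀ = D.U f - D.V f := by
      rw [Matrix.transpose_sub, D.sU, D.sV]
    have h3 : ((D.U f - D.V f) * (D.U f - D.V f)).trace =
        ∑ i, ∑ j, (D.U f - D.V f) i j * (D.U f - D.V f) i j := by
      unfold Matrix.trace
      refine Finset.sum_congr rfl fun i _ => ?_
      rw [Matrix.diag_apply, Matrix.mul_apply]
      refine Finset.sum_congr rfl fun j _ => ?_
      have h4 := congrFun (congrFun h2 i) j
      rw [Matrix.transpose_apply] at h4
      rw [h4]
    rw [h3]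
    exact Finset.sum_nonneg fun i _ => Finset.sum_nonneg fun j _ => mul_self_nonneg _
  have h5 : ((D.U f - D.V f) * (D.U f - D.V f)).trace + (D.S f * D.S f).trace =
      2 * (D.U f * D.U f).trace + 2 * (D.V f * D.V f).trace := by
    unfold Sys.S
    simp only [Matrix.sub_mul, Matrix.mul_sub, Matrix.add_mul, Matrix.mul_add, Matrix.trace_add,
      Matrix.trace_sub]
    ring
  linarith

/-- **the squares of the exponents** -/
def SqStmt : Prop := ∀ (m : ℕ) (X : Type) [TopologicalSpace X] [CompactSpace X]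
  [MeasurableSpace X] [BorelSpace X] (μ : Measure X) [IsProbabilityMeasure μ]
  [μ.IsOpenPosMeasure] (D : Sys m X) (Y Z : ℝ → X → Mt m),
    (∀ t, MeasurePreserving (D.Φ t) μ μ) →
    ∫ f, (D.V f).trace ∂μ = ∫ f, (D.U f).trace ∂μ →
    Fund D D.U Y → Fund D (fun f => -D.V f) Z → ∃ χ : Fin m → ℝ, Antitone χ ∧ (∀ i, 0 < χ i) ∧
      ∑ i, χ i = ∫ f, (D.U f).trace ∂μ ∧
      (∀ k ≤ m, Tendsto (fun T : ℝ => (∫ f, Real.log (topV k ((D.A Y Z T f)ᵀ * D.A Y Z T f)) ∂μ) /
        (2 * T)) atTop (𝓝 (psum k χ))) ∧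
      ∑ i, χ i ^ 2 ≤ ∫ f, (D.K f).trace ∂μ ∧
      (∫ f, (D.K f).trace ∂μ ≤ ∑ i, χ i ^ 2 → ∀ t f, D.K (D.Φ t f) = D.K f) ∧
      ((∀ t f, D.K (D.Φ t f) = D.K f) →
        (∃ c : ℕ → ℝ, ∀ k ≤ m, ∀ f, sg k (D.S f) = c k) →
        ∑ i, χ i ^ 2 = ∫ f, (D.K f).trace ∂μ)

theorem sq_of (hEig : EigStmt) (hKy : KyStmt) (hN : NStmt) (hUp : UpStmt)
    (hRig : RigStmt) (hPar : ParStmt) (hConv : ConvStmt) (hL : LyapStmt) : SqStmt := by
  intro m X _ _ _ _ μ _ _ D Y Z hμ hflip hY hZ
  obtain ⟨χ, hanti, hge, hlim, hlow, hlimN, hsum⟩ := hL m X μ D Y Z hμ hY hZ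
  have hχ : ∀ i, 0 < χ i := fun i => lt_of_lt_of_le D.a_pos (hge i)
  have htrU : Continuous fun f => (D.U f).trace := D.cU.matrix_trace
  have htrV : Continuous fun f => (D.V f).trace := D.cV.matrix_trace
  have hS : ∑ i, χ i = ∫ f, (D.U f).trace ∂μ := by
    have h1 : ∫ f, (D.S f).trace ∂μ = ∫ f, (D.U f).trace ∂μ + ∫ f, (D.V f).trace ∂μ := by
      rw [← integral_add (integrable_cont μ htrU) (integrable_cont μ htrV)]
      exact integral_congr_ae (Eventually.of_forall fun f => Matrix.trace_add _ _)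
    linarith
  have hpart : ∀ k ≤ m, 2 * psum k χ ≤ ∫ f, psum k (fun i => D.ev i f) ∂μ := fun k hk => by
    have h1 := hlow k hk 1 one_pos
    have h2 := intN_le μ D hμ hKy hN hUp hY hk zero_le_one
    have h3 : ∫ f, psum k (fun i => D.ev i f) ∂μ = ∫ f, sg k (D.S f) ∂μ :=
      integral_congr_ae (Eventually.of_forall fun f => psum_ev hEig D hk f)
    rw [h3]
    linarith
  have hic : ∀ i, Integrable (fun f => D.ev i f) μ := fun i => integrable_cont μ (D.ev_cont hKy i)
  have hd : ∀ k ≤ m, 0 ≤ psum k fun i => (∫ f, D.ev i f ∂μ) - 2 * χ i := by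
    intro k hk
    have h1 := hpart k hk
    have h2 : ∫ f, psum k (fun i => D.ev i f) ∂μ = psum k fun i => ∫ f, D.ev i f ∂μ := by
      unfold psum
      rw [integral_finsetSum]
      · refine Finset.sum_congr rfl fun i _ => ?_
        split_ifs
        · rfl
        · simp
      · intro i _
        split_ifs
        · exact hic i
        · exact integrable_zero _ _ _
    have h3 : psum k (fun i => (∫ f, D.ev i f ∂μ) - 2 * χ i) =
        (psum k fun i => ∫ f, D.ev i f ∂μ) - 2 * psum k χ := by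
      unfold psum
      rw [Finset.mul_sum, ← Finset.sum_sub_distrib]
      refine Finset.sum_congr rfl fun i _ => ?_
      split_ifs <;> ring
    rw [h3, ← h2]
    linarith
  have habel := sum_mul_nonneg (c := fun i => 2 * χ i)
    (fun i j hij => mul_le_mul_of_nonneg_left (hanti hij) zero_le_two)
    (fun i => mul_nonneg zero_le_two (hχ i).le) hd
  -- the identity
  have hsqc : Continuous fun f => ∑ i, D.ev i f ^ 2 :=
    continuous_finsetSum _ fun i _ => (D.ev_cont hKy i).pow 2
  have hdc : Continuous fun f => ∑ i, (D.ev i f - 2 * χ i) ^ 2 :=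
    continuous_finsetSum _ fun i _ => ((D.ev_cont hKy i).sub continuous_const).pow 2
  have hid : ∫ f, (∑ i, D.ev i f ^ 2) ∂μ = ∑ i, (2 * χ i) ^ 2 +
      2 * (∑ i, 2 * χ i * ((∫ f, D.ev i f ∂μ) - 2 * χ i)) +
        ∫ f, (∑ i, (D.ev i f - 2 * χ i) ^ 2) ∂μ := by
    have h1 : ∀ f, ∑ i, D.ev i f ^ 2 = (∑ i, (2 * χ i) ^ 2 +
        2 * ∑ i, 2 * χ i * (D.ev i f - 2 * χ i)) + ∑ i, (D.ev i f - 2 * χ i) ^ 2 := by
      intro f
      rw [Finset.mul_sum, ← Finset.sum_add_distrib, ← Finset.sum_add_distrib]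
      exact Finset.sum_congr rfl fun i _ => by ring
    have hlc : Continuous fun f => ∑ i, 2 * χ i * (D.ev i f - 2 * χ i) :=
      continuous_finsetSum _ fun i _ =>
        continuous_const.mul ((D.ev_cont hKy i).sub continuous_const)
    have hlc2 : Continuous fun f => 2 * ∑ i, 2 * χ i * (D.ev i f - 2 * χ i) :=
      continuous_const.mul hlc
    have hlc3 : Continuous fun f => ∑ i, (2 * χ i) ^ 2 +
        2 * ∑ i, 2 * χ i * (D.ev i f - 2 * χ i) := continuous_const.add hlc2
    simp only [h1]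
    rw [integral_add (integrable_cont μ hlc3) (integrable_cont μ hdc),
      integral_add (integrable_const _) (integrable_cont μ hlc2), integral_const, probReal_univ,
      one_smul, integral_const_mul, integral_finsetSum]
    · congr 3
      refine Finset.sum_congr rfl fun i _ => ?_
      rw [integral_const_mul, integral_sub (hic i) (integrable_const _), integral_const,
        probReal_univ, one_smul]
    · intro i _
      exact ((hic i).sub (integrable_const _)).const_mul _
  have hSS : ∫ f, (∑ i, D.ev i f ^ 2) ∂μ ≤ 4 * ∫ f, (D.K f).trace ∂μ := by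
    have h1 : ∀ f, ∑ i, D.ev i f ^ 2 ≤
        2 * (D.U f * D.U f).trace + 2 * (D.V f * D.V f).trace := fun f => by
      rw [← trace_sq D f]
      exact trace_SS_le D f
    have hc1 : Continuous fun f => 2 * (D.U f * D.U f).trace := continuous_const.mul (cUU D)
    have hc2 : Continuous fun f => 2 * (D.V f * D.V f).trace := continuous_const.mul (cVV D)
    have hc3 : Continuous fun f => 2 * (D.U f * D.U f).trace + 2 * (D.V f * D.V f).trace :=
      hc1.add hc2
    have h2 := integral_mono (μ := μ) (integrable_cont μ hsqc) (integrable_cont μ hc3) h1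
    rw [integral_add (integrable_cont μ hc1) (integrable_cont μ hc2), integral_const_mul,
      integral_const_mul, integral_UU μ D hμ, integral_VV μ D hμ] at h2
    linarith
  have hsq : ∑ i, (2 * χ i) ^ 2 = 4 * ∑ i, χ i ^ 2 := by
    rw [Finset.mul_sum]
    exact Finset.sum_congr rfl fun i _ => by ring
  have hdn : 0 ≤ ∫ f, (∑ i, (D.ev i f - 2 * χ i) ^ 2) ∂μ :=
    integral_nonneg fun f => Finset.sum_nonneg fun i _ => sq_nonneg _
  refine ⟨χ, hanti, hχ, hS, hlim, ?_, fun hle => ?_, fun hK hcst => ?_⟩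
  · linarith
  · have h1 : ∫ f, (∑ i, (D.ev i f - 2 * χ i) ^ 2) ∂μ ≤ 0 := by linarith
    have h2 : (fun f => ∑ i, (D.ev i f - 2 * χ i) ^ 2) = 0 := by
      have h4 : 0 ≤ fun f => ∑ i, (D.ev i f - 2 * χ i) ^ 2 := fun f =>
        Finset.sum_nonneg fun i _ => sq_nonneg _
      have h6 := (integral_eq_zero_iff_of_nonneg h4 (integrable_cont μ hdc)).1
        (le_antisymm h1 (integral_nonneg h4))
      exact (hdc.ae_eq_iff_eq μ continuous_zero).1 h6
    have he : ∀ i f, D.ev i f = 2 * χ i := by
      intro i f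
      have h3 := congrFun h2 f
      have h4 := (Finset.sum_eq_zero_iff_of_nonneg fun i _ => sq_nonneg _).1 h3 i
        (Finset.mem_univ i)
      have h5 := pow_eq_zero_iff (two_ne_zero) |>.1 h4
      linarith
    exact fun t f => (hPar m X D (rigid μ D hEig hN hUp hRig hY hlow he) t f).2
  · obtain ⟨hUV, hUc, hNlow⟩ := hConv m X D hK
    obtain ⟨c, hc⟩ := hcst
    have hk : ∀ k ≤ m, psum k χ = c k / 2 := by
      intro k hk
      obtain ⟨-, hpos, hcont, -, -⟩ := hN m X D Y hY k hk
      have h1 : ∀ T f, 0 ≤ T → Real.log (D.N Y k T f) = T * c k := by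
        intro T f hT
        refine le_antisymm ?_ ?_
        · have h2 := Real.log_le_log (hpos T f) (hUp m X D Y hY k hk T hT f)
          rw [Real.log_exp] at h2
          simpa only [hc k hk, intervalIntegral.integral_const, sub_zero, smul_eq_mul] using h2
        · have h2 := Real.log_le_log (Real.exp_pos _) (hNlow Y hY k hk T hT f)
          rwa [Real.log_exp, hc k hk] at h2
      have h3 : Tendsto (fun T : ℝ => (∫ f, Real.log (D.N Y k T f) ∂μ) / (2 * T)) atTop
          (𝓝 (c k / 2)) := by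
        refine tendsto_const_nhds.congr' ?_
        filter_upwards [eventually_gt_atTop 0] with T hT
        simp only [h1 T _ hT.le, integral_const, probReal_univ, one_smul]
        field_simp
      exact tendsto_nhds_unique (hlimN k hk) h3
    have hev2 : ∀ i f, D.ev i f = 2 * χ i := by
      intro i f
      unfold Sys.ev
      rw [hc _ i.2, hc _ i.2.le, ← psum_succ (e := χ) i, hk _ i.2, hk _ i.2.le]
      ring
    have hKU : ∀ f, D.K f = D.U f * D.U f := by
      intro f
      ext i j
      have h1 := D.dU f 0 i j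
      have h2 : (fun s => D.U (D.Φ s f) i j) = fun _ => D.U f i j := by
        funext s
        rw [hUc s f]
      rw [h2, D.zero] at h1
      have h3 := h1.unique (hasDerivAt_const (0 : ℝ) (D.U f i j))
      rw [Matrix.sub_apply] at h3
      linarith
    have h1 : ∀ f, (D.K f).trace = ∑ i, χ i ^ 2 := by
      intro f
      have h2 := trace_sq D f
      simp only [hev2, hsq] at h2
      unfold Sys.S at h2
      rw [← hUV, ← two_smul ℝ (D.U f), Matrix.smul_mul, Matrix.mul_smul, Matrix.trace_smul,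
        Matrix.trace_smul, smul_eq_mul, smul_eq_mul, ← hKU] at h2
      linarith
    simp only [h1, integral_const, probReal_univ, one_smul]

end Vale.Agent.P207.SPH.H453
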