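import Vale.Agent.P207.SPH.H453.Bw
import Vale.Agent.P207.SPH.H453.Sq

/-!
# P207, SPH: the means of `qK`, of `tr U` and of `tr K`

`∫ qK dμ ≤ ∫ tr U dμ`, `(∫ tr U dμ)² ≤ m ∫ tr K dμ`; if `K ≥ a²` and `∫ tr U dμ ≤ m a`, or
`K ≤ b²` and `∫ tr U dμ ≥ m b`, then `tr K` is constant.
-/

open Matrix MeasureTheory Set Filter Topology

noncomputable section

namespace Vale.Agent.P207.SPH.H453

variable {m : ℕ} {X : Type} [TopologicalSpace X]

/-- the sum of the diagonal entries of `Oᵀ K O` -/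
theorem trace_conj (K : Mt m) {O : Mt m} (hO : Oᵀ * O = 1) :
    ∑ i, (Oᵀ * K * O) i i = K.trace := by
  have h1 : O * Oᵀ = 1 := mul_eq_one_comm.1 hO
  calc ∑ i, (Oᵀ * K * O) i i = (Oᵀ * K * O).trace := rfl
    _ = K.trace := by
        rw [Matrix.mul_assoc, Matrix.trace_mul_comm, Matrix.mul_assoc, h1, Matrix.mul_one]

theorem col_norm {O : Mt m} (hO : Oᵀ * O = 1) (i : Fin m) :
    (fun l => O l i) ⬝ᵥ (fun l => O l i) = 1 := by
  have h7 := congrFun (congrFun hO i) i
  rw [Matrix.mul_apply, Matrix.one_apply_eq] at h7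
  exact h7

/-- **the pointwise lower bound** for `qK` -/
theorem low_le_qK {K : Mt m} {a B : ℝ} (ha : 0 ≤ a) (hB : 0 < B)
    (hlo : ∀ x, a ^ 2 * (x ⬝ᵥ x) ≤ x ⬝ᵥ (K *ᵥ x)) (hhi : ∀ x, x ⬝ᵥ (K *ᵥ x) ≤ B ^ 2 * (x ⬝ᵥ x)) :
    m * a + (K.trace - m * a ^ 2) / (B + a) ≤ qK K := by
  refine le_qK fun O hO => ?_
  have h1 : ∀ i, a + ((Oᵀ * K * O) i i - a ^ 2) / (B + a) ≤
      Real.sqrt ((Oᵀ * K * O) i i) := by
    intro i
    have h2 := hlo fun l => O l i
    have h3 := hhi fun l => O l i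
    rw [← conj_entry, col_norm hO, mul_one] at h2 h3
    set k := (Oᵀ * K * O) i i with hk
    have h4 : a ≤ Real.sqrt k := Real.le_sqrt_of_sq_le h2
    have h5 : Real.sqrt k ≤ B := Real.sqrt_le_iff.2 ⟨hB.le, h3⟩
    have h6 := Real.sq_sqrt (show 0 ≤ k by nlinarith [sq_nonneg a])
    have h7 : (k - a ^ 2) / (B + a) ≤ Real.sqrt k - a := by
      rw [div_le_iff₀ (by linarith)]
      nlinarith
    linarith
  have h2 := Finset.sum_le_sum fun i (_ : i ∈ Finset.univ) => h1 i
  rw [Finset.sum_add_distrib, ← Finset.sum_div, Finset.sum_sub_distrib, trace_conj K hO] at h2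
  simpa using h2

variable [CompactSpace X] [MeasurableSpace X] [BorelSpace X] (μ : Measure X)
  [IsProbabilityMeasure μ] (D : Sys m X) (hμ : ∀ t, MeasurePreserving (D.Φ t) μ μ)

include hμ in
/-- **the mean of `qK` is at most the mean of `tr U`** -/
theorem integral_qK_le (hK : ∀ f x, 0 ≤ x ⬝ᵥ (D.K f *ᵥ x)) :
    ∫ f, qK (D.K f) ∂μ ≤ ∫ f, (D.U f).trace ∂μ := by
  obtain ⟨C, hC⟩ := bw D hK
  have hq : Continuous fun f => qK (D.K f) := continuous_qK.comp D.cK
  have ht : Continuous fun f => (D.U f).trace := D.cU.matrix_trace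
  have h1 : ∀ T : ℝ, 0 ≤ T → T * ∫ f, qK (D.K f) ∂μ ≤ T * ∫ f, (D.U f).trace ∂μ + C := by
    intro T hT
    rw [← integral_flow_nonneg μ D hμ hq hT, ← integral_flow_nonneg μ D hμ ht hT]
    have h2 : ∫ f, ((∫ s in (0 : ℝ)..T, (D.U (D.Φ s f)).trace) + C) ∂μ =
        ∫ f, (∫ s in (0 : ℝ)..T, (D.U (D.Φ s f)).trace) ∂μ + C := by
      rw [integral_add (integrable_cont μ (continuous_integral_flow D ht T))
        (integrable_const _)]
      simp
    rw [← h2]
    exact integral_mono (integrable_cont μ (continuous_integral_flow D hq T))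
      (integrable_cont μ ((continuous_integral_flow D ht T).add continuous_const))
      fun f => hC f T hT
  by_contra h
  push Not at h
  set x := ∫ f, qK (D.K f) ∂μ with hx
  set y := ∫ f, (D.U f).trace ∂μ with hy
  have h2 := h1 ((|C| + 1) / (x - y)) (by have := abs_nonneg C; have : 0 < x - y := sub_pos.2 h; positivity)
  have h3 : (|C| + 1) / (x - y) * x - (|C| + 1) / (x - y) * y = |C| + 1 := by
    have : x - y ≠ 0 := (sub_pos.2 h).ne'
    field_simp
  have h4 := le_abs_self C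
  linarith

include hμ in
/-- **the square of the mean of `tr U` is at most `m` times the mean of `tr K`** -/
theorem sq_integral_trU_le :
    (∫ f, (D.U f).trace ∂μ) ^ 2 ≤ m * ∫ f, (D.K f).trace ∂μ := by
  rw [← integral_UU μ D hμ]
  set c := ∫ f, (D.U f).trace ∂μ with hc
  have i0 : Integrable (fun f => (D.U f).trace) μ := integrable_cont μ D.cU.matrix_trace
  have i1 : Integrable (fun f => (D.U f).trace ^ 2) μ := integrable_cont μ (D.cU.matrix_trace.pow 2)
  have i2 : Integrable (fun f => (D.U f * D.U f).trace) μ := integrable_cont μ (cUU D)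
  have h1 : ∀ f, (D.U f).trace ^ 2 ≤ m * (D.U f * D.U f).trace := by
    intro f
    have h1 : (D.U f).trace ^ 2 ≤ (Finset.univ : Finset (Fin m)).card * ∑ i, D.U f i i ^ 2 :=
      sq_sum_le_card_mul_sum_sq
    rw [Finset.card_univ, Fintype.card_fin] at h1
    refine h1.trans (mul_le_mul_of_nonneg_left ?_ (Nat.cast_nonneg m))
    refine Finset.sum_le_sum fun i _ => ?_
    rw [Matrix.diag_apply, Matrix.mul_apply]
    have h2 : ∀ j, D.U f i j * D.U f j i = D.U f i j ^ 2 := fun j => by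
      have h3 : D.U f j i = D.U f i j := congrFun (congrFun (D.sU f) i) j
      rw [h3, sq]
    simp only [h2]
    exact Finset.single_le_sum (f := fun j => D.U f i j ^ 2) (fun j _ => sq_nonneg _)
      (Finset.mem_univ i)
  have h2 : ∫ f, (D.U f).trace ^ 2 ∂μ ≤ m * ∫ f, (D.U f * D.U f).trace ∂μ := by
    rw [← integral_const_mul]
    exact integral_mono i1 (i2.const_mul _) h1
  have h4 : 0 ≤ ∫ f, ((D.U f).trace - c) ^ 2 ∂μ := integral_nonneg fun f => sq_nonneg _
  have h5 : ∫ f, ((D.U f).trace - c) ^ 2 ∂μ = ∫ f, (D.U f).trace ^ 2 ∂μ - c ^ 2 := by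
    have h6 : ∀ f, ((D.U f).trace - c) ^ 2 =
        (D.U f).trace ^ 2 - (2 * c * (D.U f).trace - c ^ 2) := fun f => by ring
    simp only [h6]
    have i3 : Integrable (fun f => 2 * c * (D.U f).trace) μ := i0.const_mul _
    have i4 : Integrable (fun f => 2 * c * (D.U f).trace - c ^ 2) μ :=
      i3.sub (integrable_const _)
    rw [integral_sub i1 i4, integral_sub i3 (integrable_const _),
      integral_const_mul, ← hc]
    simp
    ring
  linarith

/-- a continuous nonnegative function whose mean is at most zero vanishes -/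
theorem eq_zero_of_integral_le [μ.IsOpenPosMeasure] {F : X → ℝ} (hF : Continuous F)
    (h0 : ∀ f, 0 ≤ F f) (h : ∫ f, F f ∂μ ≤ 0) : ∀ f, F f = 0 := by
  have h1 : ∫ f, F f ∂μ = 0 := le_antisymm h (integral_nonneg h0)
  have h2 := (integral_eq_zero_iff_of_nonneg h0 (integrable_cont μ hF)).1 h1
  have h3 : F = fun _ => 0 := (hF.ae_eq_iff_eq μ continuous_const).1 h2
  exact fun f => congrFun h3 f

include hμ in
/-- **case `K ≥ a²` and `∫ tr U ≤ m a`** -/
theorem trace_eq_low [μ.IsOpenPosMeasure] {a : ℝ} (ha : 0 ≤ a)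
    (hlo : ∀ f x, a ^ 2 * (x ⬝ᵥ x) ≤ x ⬝ᵥ (D.K f *ᵥ x))
    (hU : ∫ f, (D.U f).trace ∂μ ≤ m * a) : ∀ f, (D.K f).trace = m * a ^ 2 := by
  have hxx : ∀ x : Fin m → ℝ, 0 ≤ x ⬝ᵥ x := fun x =>
    Finset.sum_nonneg fun i _ => mul_self_nonneg (x i)
  -- an upper bound for `K`
  obtain ⟨B, hB0, hB⟩ : ∃ B : ℝ, 0 < B ∧ ∀ f x, x ⬝ᵥ (D.K f *ᵥ x) ≤ B ^ 2 * (x ⬝ᵥ x) := by
    have hc : Continuous fun f => ∑ i, ∑ j, |D.K f i j| :=
      continuous_finsetSum _ fun i _ => continuous_finsetSum _ fun j _ =>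
        (D.cK.matrix_elem i j).abs
    obtain ⟨C, hC⟩ := exists_bound hc
    have hC0 : 0 ≤ |C| := abs_nonneg C
    refine ⟨|C| + 1, by positivity, fun f x => ?_⟩
    have h1 : x ⬝ᵥ (D.K f *ᵥ x) = ∑ i, ∑ j, x i * (D.K f i j * x j) := by
      unfold dotProduct Matrix.mulVec dotProduct
      refine Finset.sum_congr rfl fun i _ => ?_
      rw [Finset.mul_sum]
    have h2 : ∀ i j, x i * (D.K f i j * x j) ≤ |D.K f i j| * (x ⬝ᵥ x) := by
      intro i j
      have h3 : |x i * x j| ≤ x ⬝ᵥ x := by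
        have h4 : x i ^ 2 ≤ x ⬝ᵥ x := by
          have := Finset.single_le_sum (f := fun l => x l * x l)
            (fun l _ => mul_self_nonneg (x l)) (Finset.mem_univ i)
          rw [sq]; exact this
        have h5 : x j ^ 2 ≤ x ⬝ᵥ x := by
          have := Finset.single_le_sum (f := fun l => x l * x l)
            (fun l _ => mul_self_nonneg (x l)) (Finset.mem_univ j)
          rw [sq]; exact this
        rw [abs_mul]
        nlinarith [sq_abs (x i), sq_abs (x j), sq_nonneg (|x i| - |x j|)]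
      calc x i * (D.K f i j * x j) ≤ |x i * (D.K f i j * x j)| := le_abs_self _
        _ = |D.K f i j| * |x i * x j| := by
            rw [abs_mul, abs_mul, abs_mul]; ring
        _ ≤ _ := mul_le_mul_of_nonneg_left h3 (abs_nonneg _)
    have h3 : x ⬝ᵥ (D.K f *ᵥ x) ≤ (∑ i, ∑ j, |D.K f i j|) * (x ⬝ᵥ x) := by
      rw [h1, Finset.sum_mul]
      refine Finset.sum_le_sum fun i _ => ?_
      rw [Finset.sum_mul]
      exact Finset.sum_le_sum fun j _ => h2 i j
    refine h3.trans (mul_le_mul_of_nonneg_right ?_ (hxx x))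
    have h4 : ∑ i, ∑ j, |D.K f i j| ≤ |C| :=
      (le_abs_self _).trans ((hC f).trans (le_abs_self C))
    nlinarith
  have hK : ∀ f x, 0 ≤ x ⬝ᵥ (D.K f *ᵥ x) := fun f x =>
    (mul_nonneg (sq_nonneg a) (hxx x)).trans (hlo f x)
  have h1 := integral_qK_le μ D hμ hK
  have htr : ∀ f, m * a ^ 2 ≤ (D.K f).trace := by
    intro f
    have hO : ((1 : Mt m))ᵀ * (1 : Mt m) = 1 := by rw [Matrix.transpose_one, Matrix.one_mul]
    rw [← trace_conj (D.K f) hO]
    have h2 : ∀ i : Fin m, a ^ 2 ≤ ((1 : Mt m)ᵀ * D.K f * (1 : Mt m)) i i := by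
      intro i
      have h3 := hlo f fun l => (1 : Mt m) l i
      rw [← conj_entry, col_norm hO] at h3
      exact (mul_one _).ge.trans h3
    calc m * a ^ 2 = ∑ _i : Fin m, a ^ 2 := by simp
      _ ≤ _ := Finset.sum_le_sum fun i _ => h2 i
  have hct : Continuous fun f => (D.K f).trace := cKt D
  have h2 : ∫ f, (m * a + ((D.K f).trace - m * a ^ 2) / (B + a)) ∂μ ≤ ∫ f, qK (D.K f) ∂μ :=
    integral_mono (integrable_cont μ (continuous_const.add
      ((hct.sub continuous_const).div_const _))) (integrable_cont μ (continuous_qK.comp D.cK))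
      fun f => low_le_qK ha hB0 (hlo f) (hB f)
  have h3 : ∫ f, (m * a + ((D.K f).trace - m * a ^ 2) / (B + a)) ∂μ =
      m * a + (∫ f, ((D.K f).trace - m * a ^ 2) ∂μ) / (B + a) := by
    have i1 : Integrable (fun f => ((D.K f).trace - m * a ^ 2) / (B + a)) μ :=
      integrable_cont μ ((hct.sub continuous_const).div_const _)
    rw [integral_add (integrable_const _) i1, integral_div]
    simp
  have hBa : 0 < B + a := by linarith
  have h4 : ∫ f, ((D.K f).trace - m * a ^ 2) ∂μ ≤ 0 := by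
    rw [h3] at h2
    have h5 : (∫ f, ((D.K f).trace - m * a ^ 2) ∂μ) / (B + a) ≤ 0 := by linarith
    by_contra h6
    push Not at h6
    exact absurd h5 (not_le.2 (div_pos h6 hBa))
  intro f
  have h5 : (D.K f).trace - m * a ^ 2 = 0 := eq_zero_of_integral_le μ
    (F := fun f => (D.K f).trace - m * a ^ 2) (hct.sub continuous_const)
    (fun f => sub_nonneg.2 (htr f)) h4 f
  linarith

include hμ in
/-- **case `K ≤ b²` and `m b ≤ ∫ tr U`** -/
theorem trace_eq_high [μ.IsOpenPosMeasure] {b : ℝ} (hb : 0 ≤ b)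
    (hhi : ∀ f x, x ⬝ᵥ (D.K f *ᵥ x) ≤ b ^ 2 * (x ⬝ᵥ x))
    (hU : m * b ≤ ∫ f, (D.U f).trace ∂μ) : ∀ f, (D.K f).trace = m * b ^ 2 := by
  have hct : Continuous fun f => (D.K f).trace := cKt D
  have htr : ∀ f, (D.K f).trace ≤ m * b ^ 2 := by
    intro f
    have hO : ((1 : Mt m))ᵀ * (1 : Mt m) = 1 := by rw [Matrix.transpose_one, Matrix.one_mul]
    rw [← trace_conj (D.K f) hO]
    have h2 : ∀ i : Fin m, ((1 : Mt m)ᵀ * D.K f * (1 : Mt m)) i i ≤ b ^ 2 := by
      intro i
      have h3 := hhi f fun l => (1 : Mt m) l i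
      rw [← conj_entry, col_norm hO] at h3
      exact h3.trans (mul_one _).le
    calc ∑ i, ((1 : Mt m)ᵀ * D.K f * (1 : Mt m)) i i ≤ ∑ _i : Fin m, b ^ 2 :=
          Finset.sum_le_sum fun i _ => h2 i
      _ = m * b ^ 2 := by simp
  have h1 := sq_integral_trU_le μ D hμ
  have h2 : (m * b) ^ 2 ≤ m * ∫ f, (D.K f).trace ∂μ :=
    (pow_le_pow_left₀ (mul_nonneg (Nat.cast_nonneg m) hb) hU 2).trans h1
  have h3 : ∫ f, (m * b ^ 2 - (D.K f).trace) ∂μ = m * b ^ 2 - ∫ f, (D.K f).trace ∂μ := by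
    rw [integral_sub (integrable_const _) (integrable_cont μ hct)]
    simp
  have h4 : ∫ f, (m * b ^ 2 - (D.K f).trace) ∂μ ≤ 0 := by
    rw [h3]
    rcases Nat.eq_zero_or_pos m with h0 | h0
    · subst h0
      simp [Matrix.trace]
    · have h5 : (0 : ℝ) < m := Nat.cast_pos.2 h0
      have h6 : m * (m * b ^ 2) ≤ m * ∫ f, (D.K f).trace ∂μ := by
        refine le_trans (le_of_eq ?_) h2
        ring
      have h7 := le_of_mul_le_mul_left h6 h5
      linarith
  intro f
  have h5 : m * b ^ 2 - (D.K f).trace = 0 := eq_zero_of_integral_le μ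
    (F := fun f => m * b ^ 2 - (D.K f).trace) (continuous_const.sub hct)
    (fun f => sub_nonneg.2 (htr f)) h4 f
  linarith

end Vale.Agent.P207.SPH.H453
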