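import Vale.Agent.P207.SPH.H453.BwGeo
import Vale.Agent.P207.SPH.H453.RayI
import Vale.Agent.P207.Q.H413.Const
import Vale.Agent.P207.H118.EDefs

/-!
# P207, SPH: constant curvature from the equality in the bounds of the means
-/

open scoped Manifold ContDiff ENNReal Topology Matrix
open Bundle MeasureTheory Set Filter

set_option maxSynthPendingDepth 3
set_option linter.unusedSectionVars false

noncomputable section

namespace Vale.Agent.P207.SPH.H453

open Vale.Agent.P255 (RMetric innerAt coefIn Gam Riem IsGeo)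
open Vale.Agent.P207 Vale.Agent.P207.Q Vale.Agent.P207.Q.H130
open Vale.Agent.P207.Q.H717 (secc)
open Vale.Agent.P207F (ConstCurvature SecLE SecGE)

section

variable {m : ℕ} {M : Type} [TopologicalSpace M] [ChartedSpace (EV (m + 1)) M]
  [IsManifold 𝓘(ℝ, EV (m + 1)) ∞ M] {g : RMetric (EV (m + 1)) M}

theorem Km_ge_of {l : ℝ} (h : SecLE g (-l)) (f : Fr g) (x : Fin m → ℝ) :
    l * (x ⬝ᵥ x) ≤ x ⬝ᵥ (Km g f *ᵥ x) := by
  rcases eq_or_ne x 0 with rfl | hx
  · simp
  · have h2 := h f.pt _ (mem_chart_target _ _) _ _ (H832.N4.li_sum f hx)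
    rw [H832.N4.gram_sum] at h2
    rw [H832.N4.Km_quad]
    unfold secc
    linarith

theorem Km_le_of {l : ℝ} (h : SecGE g (-l)) (f : Fr g) (x : Fin m → ℝ) :
    x ⬝ᵥ (Km g f *ᵥ x) ≤ l * (x ⬝ᵥ x) := by
  rcases eq_or_ne x 0 with rfl | hx
  · simp
  · have h2 := h f.pt _ (mem_chart_target _ _) _ _ (H832.N4.li_sum f hx)
    rw [H832.N4.gram_sum] at h2
    rw [H832.N4.Km_quad]
    unfold secc
    linarith

theorem diag_quad (K : Mt m) (i : Fin m) :
    Pi.single i (1 : ℝ) ⬝ᵥ (K *ᵥ Pi.single i (1 : ℝ)) = K i i := by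
  rw [single_dotProduct, one_mul, Matrix.mulVec_single]
  simp

theorem const_of_diag (hm : 1 ≤ m) {κ : ℝ} (h : ∀ (f : Fr g) i, Km g f i i = κ) :
    ConstCurvature g κ := by
  refine H413.const_of_Rf (i₀ := 0) (i₁ := Fin.succ (⟨0, by omega⟩ : Fin m))
    (Fin.succ_ne_zero _).symm fun f => ?_
  have h1 : Km g f ⟨0, by omega⟩ ⟨0, by omega⟩ =
      -Vale.Agent.P207.Q.H545.Rf g f (Fin.succ (⟨0, by omega⟩ : Fin m)) 0 0 (Fin.succ (⟨0, by omega⟩ : Fin m)) := rfl
  rw [h] at h1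
  linarith

/-- **case `K ≤ -a²`, `Ric = -m a²`** -/
theorem const_low (hm : 1 ≤ m) {a : ℝ} (hK : SecLE g (-a ^ 2))
    (h : ∀ f : Fr g, (Km g f).trace = m * a ^ 2) : ConstCurvature g (a ^ 2) := by
  refine const_of_diag hm fun f i => ?_
  have h1 : ∀ i, 0 ≤ Km g f i i - a ^ 2 := fun i => by
    have h2 := Km_ge_of hK f (Pi.single i 1)
    rw [diag_quad, single_dotProduct, one_mul, Pi.single_eq_same, mul_one] at h2
    linarith
  have h2 : ∑ i, (Km g f i i - a ^ 2) = 0 := by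
    rw [Finset.sum_sub_distrib]
    have h3 : ∑ i, Km g f i i = m * a ^ 2 := h f
    rw [h3]
    simp
  have h3 := (Finset.sum_eq_zero_iff_of_nonneg fun i _ => h1 i).1 h2 i (Finset.mem_univ i)
  linarith

/-- **case `K ≥ -b²`, `Ric = -m b²`** -/
theorem const_high (hm : 1 ≤ m) {b : ℝ} (hK : SecGE g (-b ^ 2))
    (h : ∀ f : Fr g, (Km g f).trace = m * b ^ 2) : ConstCurvature g (b ^ 2) := by
  refine const_of_diag hm fun f i => ?_
  have h1 : ∀ i, 0 ≤ b ^ 2 - Km g f i i := fun i => by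
    have h2 := Km_le_of hK f (Pi.single i 1)
    rw [diag_quad, single_dotProduct, one_mul, Pi.single_eq_same, mul_one] at h2
    linarith
  have h2 : ∑ i, (b ^ 2 - Km g f i i) = 0 := by
    rw [Finset.sum_sub_distrib]
    have h3 : ∑ i, Km g f i i = m * b ^ 2 := h f
    rw [h3]
    simp
  have h3 := (Finset.sum_eq_zero_iff_of_nonneg fun i _ => h1 i).1 h2 i (Finset.mem_univ i)
  linarith

end

end Vale.Agent.P207.SPH.H453
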