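import Vale.Agent.P207.SPH.Geo
import Vale.Agent.P207.SPH.H647.Jac

/-!
# P207, project SPH, row G2: the columns of the Jacobi tensor and their combinations

`A` is a matrix solution of `A'' = K A` along the orbit of the frame `f`, `A(0) = 0`, `A'(0) = 1`.
For each vector `c` the components of `A c` in the parallel frame `e_1, …, e_m` are those of a
Jacobi field with `J(0) = 0`, `J'(0) = ∑ c_i e_i`.
-/

open scoped Manifold ContDiff ENNReal Topology Matrix
open Bundle MeasureTheory Set Filter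

set_option maxSynthPendingDepth 3
set_option linter.unusedSectionVars false

noncomputable section

namespace Vale.Agent.P207.SPH.H453

open Vale.Agent.P255 (RMetric coefIn Gam Riem IsGeo IsJac CovDer fieldIn curveIn innerAt Metric
  trans coefL chris chrisB IsMetricOn cc)
open Vale.Agent.P207 Vale.Agent.P207.Q Vale.Agent.P207.Q.H130
open Vale.Agent.P207.Q.H892 Vale.Agent.P207.Q.H545
open Vale.Agent.P207.Q.H545 (Rf)
open Vale.Agent.P207.N4.H248J
open Vale.Agent.P207.SPH (Mt MD)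

theorem hasDerivAt_mulVec {m : ℕ} {A : ℝ → Mt m} {A' : Mt m} {t : ℝ} (h : MD A A' t)
    (c : Fin m → ℝ) (i : Fin m) : HasDerivAt (fun s => (A s *ᵥ c) i) ((A' *ᵥ c) i) t := by
  have h1 : HasDerivAt (fun s => ∑ j, A s i j * c j) (∑ j, A' i j * c j) t :=
    HasDerivAt.fun_sum fun j _ => (h i j).mul_const (c j)
  exact h1

variable {m : ℕ} {M : Type} [TopologicalSpace M] [ChartedSpace (EV (m + 1)) M]
  [IsManifold 𝓘(ℝ, EV (m + 1)) ∞ M] {g : RMetric (EV (m + 1)) M} {Φ : ℝ → Fr g → Fr g}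

/-- **the fields `A c` are Jacobi fields** -/
theorem isJac_mulVec [T2Space M] (hΦ : IsHorFlow g (Pi.single 0 1) Φ) (f : Fr g) {A A' : ℝ → Mt m}
    (hA : ∀ t, MD A (A' t) t) (hA' : ∀ t, MD A' (Km g (Φ t f) * A t) t) (c : Fin m → ℝ) :
    IsJac g (fun t => (Φ t f).pt) (Jf Φ f fun t => A t *ᵥ c) := by
  refine isJac_Jf hΦ f (z := fun t => A' t *ᵥ c) (fun t j => hasDerivAt_mulVec (hA t) c j)
    (fun t j => ?_)
  refine (hasDerivAt_mulVec (hA' t) c j).congr_deriv ?_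
  rw [Matrix.mulVec_mulVec]

/-- the covariant derivative of a field in the moving frame -/
theorem covDer_Jf [T2Space M] (hΦ : IsHorFlow g (Pi.single 0 1) Φ) (f : Fr g) {y z : ℝ → Fin m → ℝ} {t : ℝ}
    (hy : ∀ i, HasDerivAt (fun s => y s i) (z t i) t) (a : M)
    (ha : (Φ t f).pt ∈ (chartAt (EV (m + 1)) a).source) :
    CovDer (coefIn g a) (curveIn (fun t => (Φ t f).pt) a)
      (fieldIn (fun t => (Φ t f).pt) (Jf Φ f y) a) t =
      fieldIn (fun t => (Φ t f).pt) (Jf Φ f z) a t := by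
  have hc : Continuous (fun t => (Φ t f).pt) :=
    Fr.continuous_pt.comp (hΦ.continuous_left f)
  have h1 := (cov_sum hΦ f a ha (y := y) (z := z t) hy).2
  rw [fieldIn_Jf f z a t ha, ← h1]
  refine covDer_congr ?_
  filter_upwards [hc.continuousAt.preimage_mem_nhds
    ((chartAt (EV (m + 1)) a).open_source.mem_nhds ha)] with s hs
  exact fieldIn_Jf f y a s hs

/-- inner products of fields in the moving frame -/
theorem inner_sum₂ (f : Fr g) (x y : Fin m → ℝ) :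
    innerB g f.pt (∑ i, x i • f.e i.succ) (∑ i, y i • f.e i.succ) = x ⬝ᵥ y := by
  have h1 : ∀ i j : Fin m, innerB g f.pt (f.e i.succ) (f.e j.succ) = if i = j then 1 else 0 :=
    fun i j => by rw [H832.N4.inner_ee]; simp only [Fin.succ_inj]
  simp only [map_sum, map_smul, FunLike.coe_sum, Finset.sum_apply,
    FunLike.coe_smul, Pi.smul_apply, smul_eq_mul, h1]
  simp [dotProduct, mul_comm]

theorem inner_Jf₂ (f : Fr g) (y z : ℝ → Fin m → ℝ) (t : ℝ) :
    innerAt g (Φ t f).pt (Jf Φ f y t) (Jf Φ f z t) = y t ⬝ᵥ z t :=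
  inner_sum₂ (Φ t f) (y t) (z t)

/-- the fields in the moving frame are orthogonal to the velocity -/
theorem inner_Jf_velo (hΦ : IsHorFlow g (Pi.single 0 1) Φ) (f : Fr g) (y : ℝ → Fin m → ℝ) (t : ℝ) :
    innerAt g (Φ t f).pt (Jf Φ f y t)
      (P207F.velo (E := EV (m + 1)) (fun t => (Φ t f).pt) t) = 0 := by
  have h1 := velo_frame hΦ f t
  have h2 := H832.N4.inner_sum_zero (Φ t f) (y t)
  rw [← h1] at h2
  exact h2

theorem Jf_eq_zero (f : Fr g) {y : ℝ → Fin m → ℝ} {t : ℝ} (h : y t = 0) : Jf Φ f y t = 0 := by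
  change (∑ j, y t j • (Φ t f).e j.succ : EV (m + 1)) = 0
  rw [h]
  simp

/-- the derivative of a field which vanishes at the time `t` -/
theorem deriv_fieldIn_Jf [T2Space M] (hΦ : IsHorFlow g (Pi.single 0 1) Φ) (f : Fr g) {y : ℝ → Fin m → ℝ}
    {z : Fin m → ℝ} {t : ℝ} (hy : ∀ i, HasDerivAt (fun s => y s i) (z i) t) (h0 : y t = 0) (a : M)
    (ha : (Φ t f).pt ∈ (chartAt (EV (m + 1)) a).source) :
    deriv (fieldIn (fun t => (Φ t f).pt) (Jf Φ f y) a) t = ∑ i, z i • ec a (Φ t f) i.succ := by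
  have h1 : HasDerivAt (fun r => ∑ i, y r i • ec a (Φ r f) i.succ)
      (∑ i, (y t i • (-(chrisB ((mt g).coef a) (chF a (Φ t f).1).1 (ec a (Φ t f) 0)
        (ec a (Φ t f) i.succ))) + z i • ec a (Φ t f) i.succ)) t :=
    HasDerivAt.fun_sum fun i _ => (hy i).smul (hasDerivAt_ec hΦ f a ha i.succ)
  have hc : Continuous (fun t => (Φ t f).pt) :=
    Fr.continuous_pt.comp (hΦ.continuous_left f)
  have h2 : fieldIn (fun t => (Φ t f).pt) (Jf Φ f y) a =ᶠ[𝓝 t]
      fun r => ∑ i, y r i • ec a (Φ r f) i.succ := by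
    filter_upwards [hc.continuousAt.preimage_mem_nhds
      ((chartAt (EV (m + 1)) a).open_source.mem_nhds ha)] with s hs
    exact fieldIn_Jf f y a s hs
  rw [h2.deriv_eq, h1.deriv, h0]
  simp

/-- the derivative of the chart applied to a combination of the frame -/
theorem mfderiv_sum (f : Fr g) (a : M) (ha : f.pt ∈ (chartAt (EV (m + 1)) a).source)
    (c : Fin m → ℝ) :
    (mfderiv 𝓘(ℝ, EV (m + 1)) 𝓘(ℝ, EV (m + 1)) (chartAt (EV (m + 1)) a) f.pt
      (∑ i, c i • f.e i.succ : EV (m + 1)) : EV (m + 1)) = ∑ i, c i • ec a f i.succ := by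
  have h1 := mfderiv_chart_eq (n := m + 1) a ha
  have h2 : (mfderiv 𝓘(ℝ, EV (m + 1)) 𝓘(ℝ, EV (m + 1)) (chartAt (EV (m + 1)) a) f.pt
      (∑ i, c i • f.e i.succ : EV (m + 1)) : EV (m + 1)) =
      fderiv ℝ (trans (EV (m + 1)) f.pt a) (chartAt (EV (m + 1)) f.pt f.pt)
        (∑ i, c i • f.e i.succ : EV (m + 1)) :=
    congrArg (fun L : EV (m + 1) →L[ℝ] EV (m + 1) => L (∑ i, c i • f.e i.succ)) h1
  refine h2.trans ?_
  rw [map_sum]
  refine Finset.sum_congr rfl fun i _ => ?_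
  rw [map_smul]
  rfl

/-- **row G2** -/
theorem jacGeo : JacGeoStmt := by
  intro m _ M _ _ _ _ _ g D Y Z hΦ hK hcs hY hZ f
  obtain ⟨hA0, hA'0, hA⟩ := H647.jac m (Fr g) D Y Z hY hZ f
  have hd : ∀ t, MD (fun s => D.A Y Z s f) (D.A' Y Z t f) t := fun t => (hA t).1
  have hd' : ∀ t, MD (fun s => D.A' Y Z s f) (Km g (D.Φ t f) * D.A Y Z t f) t := by
    intro t
    rw [← hK]
    exact (hA t).2
  refine ⟨fun c => ⟨?_, ?_, ?_⟩, fun c c' T => ?_⟩
  · exact isJac_mulVec (A := fun s => D.A Y Z s f) (A' := fun s => D.A' Y Z s f) hΦ f hd hd' c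
  · refine Jf_eq_zero f (y := fun t => D.A Y Z t f *ᵥ c) ?_
    rw [hA0, Matrix.zero_mulVec]
  · have ha : (D.Φ 0 f).pt ∈ (chartAt (EV (m + 1)) (D.Φ 0 f).pt).source := mem_chart_source _ _
    have h1 := deriv_fieldIn_Jf hΦ f (y := fun t => D.A Y Z t f *ᵥ c)
      (z := D.A' Y Z 0 f *ᵥ c) (fun j => hasDerivAt_mulVec (hd 0) c j) (by
        rw [hA0, Matrix.zero_mulVec]) (D.Φ 0 f).pt ha
    rw [hA'0, Matrix.one_mulVec] at h1
    exact h1.trans (mfderiv_sum (D.Φ 0 f) (D.Φ 0 f).pt ha c).symm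
  · exact inner_Jf₂ f (fun t => D.A Y Z t f *ᵥ c) (fun t => D.A Y Z t f *ᵥ c') T

end Vale.Agent.P207.SPH.H453
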