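import Vale.Agent.P207.SPH.H453.AvE

/-!
# P207: bunching along one orbit from the average of the greatest curvature

`each_of_top` : if `(2 m - 1) c < 2 h` and the average of the greatest curvature along the orbit is
at most `c²` for arbitrarily large times, then the unstable derivative is bunched at some time.
-/

open Module Set Filter Topology Metric MeasureTheory
open scoped ContDiff

noncomputable section

namespace Vale.Agent.P207.SPH.H453.Av

open Vale.Agent.P207.N3 Vale.Agent.P207.N4 Vale.Agent.P207.N4.H709 Vale.Agent.P207.N4.H376.Ric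

variable [Dim]

variable {Γ X B : Type} [Group Γ] [MetricSpace X] [ProperSpace X] [MulAction Γ X]
  [IsIsometricSMul Γ X] [TopologicalSpace B] [CompactSpace B] [T2Space B] [MulAction Γ B]
  [ContinuousConstSMul Γ B]

variable {L : Leaf Γ X B}

/-- the Jacobi operator is symmetric -/
theorem K_symm (M : Metr L) (x : X) (v w : E2) :
    inner ℝ (M.K x v) w = inner ℝ v (M.K x w) := by
  have h1 : ∀ v w : E2, HasDerivAt (fun s => inner ℝ (M.U (L.φ s x) v) w)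
      (inner ℝ ((-(M.U (L.φ 0 x) ∘L M.U (L.φ 0 x)) - M.K (L.φ 0 x)) v) w) 0 := by
    intro v w
    have h2 := (M.riccati x 0).clm_apply (hasDerivAt_const (0 : ℝ) v)
    have h3 := h2.inner ℝ (hasDerivAt_const (0 : ℝ) w)
    refine h3.congr_deriv ?_
    simp
  have h2 := h1 v w
  have h3 := h1 w v
  have h4 : (fun s => inner ℝ (M.U (L.φ s x) v) w) = fun s => inner ℝ (M.U (L.φ s x) w) v := by
    funext s
    rw [M.U_symm, real_inner_comm]
  rw [h4] at h2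
  have h5 := h2.unique h3
  rw [L.φ_zero] at h5
  simp only [sub_apply, neg_apply, ContinuousLinearMap.comp_apply, inner_sub_left,
    inner_neg_left] at h5
  have h6 : inner ℝ (M.U x (M.U x v)) w = inner ℝ (M.U x (M.U x w)) v := by
    rw [M.U_symm x (M.U x v) w, M.U_symm x (M.U x w) v, real_inner_comm]
  have h7 : inner ℝ (M.K x v) w = inner ℝ (M.K x w) v := by linarith
  rw [h7, real_inner_comm]

/-- the growth of the unstable Jacobi fields from the greatest curvature along the orbit -/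
theorem Dt_le_exp (M : Metr L) (x : X) {β : ℝ → ℝ} (hβc : Continuous β)
    (hK0 : ∀ s v, 0 ≤ -inner ℝ (M.K (L.φ s x) v) v)
    (hβ : ∀ s v, -inner ℝ (M.K (L.φ s x) v) v ≤ β s * ‖v‖ ^ 2) {c K₀ : ℝ} (hc : 0 < c)
    (hK₀ : ∀ y, ‖M.U y‖ ≤ K₀) {T : ℝ} (hT : 0 ≤ T) {v : E2} (hv : ‖v‖ = 1) :
    c ^ 2 * ‖H77.Dt L T x v‖ ^ 2 ≤
      (K₀ ^ 2 + c ^ 2) * Real.exp (c⁻¹ * (∫ s in (0 : ℝ)..T, β s) + c * T) := by
  have hd : ∀ s, HasDerivAt (fun s => H77.Dt L s x v) (M.U (L.φ s x) (H77.Dt L s x v)) s :=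
    fun s => (ContinuousLinearMap.apply ℝ E2 v).hasFDerivAt.comp_hasDerivAt s
      (H77.hasDerivAt_Dt M x s)
  have hUd : ∀ s, HasDerivAt (fun s => M.U (L.φ s x) (H77.Dt L s x v))
      (-(M.K (L.φ s x) (H77.Dt L s x v))) s := by
    intro s
    refine ((M.riccati x s).clm_apply (hd s)).congr_deriv ?_
    simp only [sub_apply, neg_apply, ContinuousLinearMap.comp_apply]
    abel
  have hn : ∀ s, 0 < ‖H77.Dt L s x v‖ := fun s => norm_Dt_vec_pos (L := L) s x hv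
  set w : ℝ → ℝ := fun s => ‖M.U (L.φ s x) (H77.Dt L s x v)‖ ^ 2 +
    c ^ 2 * ‖H77.Dt L s x v‖ ^ 2 with hw
  have hwd : ∀ s, HasDerivAt w (2 * inner ℝ (M.U (L.φ s x) (H77.Dt L s x v))
      (-(M.K (L.φ s x) (H77.Dt L s x v))) + c ^ 2 * (2 * inner ℝ (H77.Dt L s x v)
        (M.U (L.φ s x) (H77.Dt L s x v)))) s := fun s =>
    ((hUd s).norm_sq).add ((hd s).norm_sq.const_mul (c ^ 2))
  have hw0 : ∀ s, 0 < w s := fun s => by
    have h1 := mul_pos (pow_pos hc 2) (pow_pos (hn s) 2)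
    have h2 := sq_nonneg ‖M.U (L.φ s x) (H77.Dt L s x v)‖
    simp only [hw]
    linarith
  have hG : ∀ s, HasDerivAt (fun s => Real.log (w s) - (c⁻¹ * (∫ r in (0 : ℝ)..s, β r) + c * s))
      ((2 * inner ℝ (M.U (L.φ s x) (H77.Dt L s x v))
      (-(M.K (L.φ s x) (H77.Dt L s x v))) + c ^ 2 * (2 * inner ℝ (H77.Dt L s x v)
        (M.U (L.φ s x) (H77.Dt L s x v)))) / w s - (c⁻¹ * β s + c * 1)) s := fun s =>
    ((hwd s).log (hw0 s).ne').sub
      (((hβc.integral_hasStrictDerivAt 0 s).hasDerivAt.const_mul c⁻¹).add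
        ((hasDerivAt_id s).const_mul c))
  have hanti : Antitone fun s => Real.log (w s) - (c⁻¹ * (∫ r in (0 : ℝ)..s, β r) + c * s) := by
    refine antitone_of_deriv_nonpos (fun s => (hG s).differentiableAt) fun s => ?_
    rw [(hG s).deriv, sub_nonpos, div_le_iff₀ (hw0 s)]
    set y := H77.Dt L s x v with hy
    set z := M.U (L.φ s x) y with hz
    have h1 := hK0 s (z - c • y)
    have h2 := hβ s z
    have h3 := hβ s (c • y)
    have h4 : 0 ≤ ‖z - c • y‖ ^ 2 := sq_nonneg _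
    have h5 := K_symm M (L.φ s x) y z
    rw [map_sub, map_smul, inner_sub_left, inner_sub_right, inner_sub_right, inner_smul_left,
      inner_smul_left, inner_smul_right, inner_smul_right] at h1
    rw [map_smul, inner_smul_left, inner_smul_right, norm_smul, mul_pow] at h3
    simp only [conj_trivial] at h1 h3
    rw [norm_sub_sq_real, inner_smul_right, norm_smul, mul_pow] at h4
    rw [Real.norm_eq_abs, sq_abs] at h3 h4
    rw [inner_neg_right, real_inner_comm z y]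
    have h6 : inner ℝ (M.K (L.φ s x) z) y = inner ℝ z (M.K (L.φ s x) y) :=
      K_symm M (L.φ s x) z y
    have h7 : inner ℝ (M.K (L.φ s x) y) z = inner ℝ z (M.K (L.φ s x) y) := real_inner_comm _ _
    rw [h6, h7] at h1
    have hw' : w s = ‖z‖ ^ 2 + c ^ 2 * ‖y‖ ^ 2 := rfl
    rw [hw']
    set q := inner ℝ z (M.K (L.φ s x) y) with hq
    set kz := inner ℝ (M.K (L.φ s x) z) z with hkz
    set ky := inner ℝ (M.K (L.φ s x) y) y with hky
    set zy := inner ℝ z y with hzy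
    -- `2 c (-q) ≤ β w`, `2 c zy ≤ w`
    have e1 : 2 * c * (-q) ≤ β s * (‖z‖ ^ 2 + c ^ 2 * ‖y‖ ^ 2) := by nlinarith
    have e2 : 2 * c * zy ≤ ‖z‖ ^ 2 + c ^ 2 * ‖y‖ ^ 2 := by nlinarith
    have e3 : 2 * (-q) ≤ c⁻¹ * β s * (‖z‖ ^ 2 + c ^ 2 * ‖y‖ ^ 2) := by
      have h8 := mul_le_mul_of_nonneg_left e1 (inv_pos.2 hc).le
      have h9 : c⁻¹ * (2 * c * (-q)) = 2 * (-q) := by field_simp
      rw [h9] at h8
      linarith
    have e4 : c ^ 2 * (2 * zy) ≤ c * (‖z‖ ^ 2 + c ^ 2 * ‖y‖ ^ 2) := by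
      have h8 := mul_le_mul_of_nonneg_left e2 hc.le
      linarith
    linarith
  have h1 := hanti hT
  simp only [intervalIntegral.integral_same, mul_zero, add_zero, sub_zero] at h1
  have h2 : w T ≤ w 0 * Real.exp (c⁻¹ * (∫ s in (0 : ℝ)..T, β s) + c * T) := by
    have h3 : Real.log (w T) ≤ Real.log (w 0) + (c⁻¹ * (∫ s in (0 : ℝ)..T, β s) + c * T) := by
      linarith
    have h4 := Real.exp_le_exp.2 h3
    rwa [Real.exp_add, Real.exp_log (hw0 0), Real.exp_log (hw0 T)] at h4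
  have h3 : w 0 ≤ K₀ ^ 2 + c ^ 2 := by
    have h5 : ‖H77.Dt L 0 x v‖ = 1 := by
      rw [H77.Dt_zero, ContinuousLinearMap.id_apply, hv]
    have h6 : ‖M.U (L.φ 0 x) (H77.Dt L 0 x v)‖ ≤ K₀ := by
      refine (ContinuousLinearMap.le_opNorm _ _).trans ?_
      rw [h5, mul_one]
      exact hK₀ _
    simp only [hw, h5]
    have h7 := pow_le_pow_left₀ (norm_nonneg _) h6 2
    linarith
  have h4 : c ^ 2 * ‖H77.Dt L T x v‖ ^ 2 ≤ w T := by
    simp only [hw]
    linarith [sq_nonneg ‖M.U (L.φ T x) (H77.Dt L T x v)‖]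
  exact h4.trans (h2.trans (mul_le_mul_of_nonneg_right h3 (Real.exp_pos _).le))

variable [MeasurableSpace B] [BorelSpace B]

/-- **bunching along one orbit from the average of the greatest curvature** -/
theorem each_of_top (M : Metr L) (A : Area L) (x : X) {β : ℝ → ℝ} (hβc : Continuous β)
    (hK0 : ∀ s v, 0 ≤ -inner ℝ (M.K (L.φ s x) v) v)
    (hβ : ∀ s v, -inner ℝ (M.K (L.φ s x) v) v ≤ β s * ‖v‖ ^ 2) {c : ℝ} (hc : 0 < c)
    (hk : ∃ᶠ T in atTop, ∫ s in (0 : ℝ)..T, β s ≤ c ^ 2 * T)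
    (hQ : (2 * (Dim.m : ℝ) - 1) * c < 2 * A.h) :
    ∃ S : ℝ, 0 < S ∧ ∀ v w : E2, ‖v‖ = 1 → ‖w‖ = 1 →
      ‖H77.Dt L S x v‖ < ‖H77.Dt L S x w‖ ^ 2 := by
  obtain ⟨D₁, D₂, hD₁, hD₂, hdet⟩ := det_bounds A
  obtain ⟨K₀, hK₀, hUK⟩ := exists_U_norm M
  obtain ⟨n, hn⟩ : ∃ n, Dim.m = n + 1 := ⟨Dim.m - 1, by have := Dim.two_le; omega⟩
  set C : ℝ := Real.sqrt ((K₀ ^ 2 + c ^ 2) / c ^ 2) with hC
  have hq : 0 < (K₀ ^ 2 + c ^ 2) / c ^ 2 := by positivity
  have hC0 : 0 < C := Real.sqrt_pos.2 hq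
  have hC2 : C ^ 2 = (K₀ ^ 2 + c ^ 2) / c ^ 2 := Real.sq_sqrt hq.le
  obtain ⟨T₀, hT₀, hT₀'⟩ := exists_lin ((2 * n + 1) * Real.log C - 2 * Real.log D₁ + 1)
    (show 0 < 2 * A.h - (2 * (Dim.m : ℝ) - 1) * c by linarith)
  obtain ⟨S, hS1, hS2⟩ := (hk.and_eventually (eventually_ge_atTop T₀)).exists
  have hS0 : 0 < S := hT₀.trans_le hS2
  refine ⟨S, hS0, ?_⟩
  set P : ℝ := C * Real.exp (c * S) with hP
  have hPp : 0 < P := mul_pos hC0 (Real.exp_pos _)
  have h1 : ∀ v : E2, ‖v‖ = 1 → ‖H77.Dt L S x v‖ ≤ P := by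
    intro v hv
    have h2 := Dt_le_exp M x hβc hK0 hβ hc hUK hS0.le hv
    have h3 : ‖H77.Dt L S x v‖ ^ 2 ≤ P ^ 2 := by
      have h4 : P ^ 2 = (K₀ ^ 2 + c ^ 2) / c ^ 2 * Real.exp (2 * (c * S)) := by
        rw [hP, mul_pow, hC2, ← Real.exp_nat_mul]
        norm_num
      have h5 : c⁻¹ * (∫ s in (0 : ℝ)..S, β s) + c * S ≤ 2 * (c * S) := by
        have h6 := mul_le_mul_of_nonneg_left hS1 (inv_pos.2 hc).le
        have h7 : c⁻¹ * (c ^ 2 * S) = c * S := by field_simp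
        linarith
      rw [h4, div_mul_eq_mul_div, le_div_iff₀ (pow_pos hc 2)]
      calc ‖H77.Dt L S x v‖ ^ 2 * c ^ 2 = c ^ 2 * ‖H77.Dt L S x v‖ ^ 2 := mul_comm _ _
        _ ≤ _ := h2
        _ ≤ _ := mul_le_mul_of_nonneg_left (Real.exp_le_exp.2 h5) (by positivity)
    exact le_of_sq_le_sq h3 hPp.le
  have h2 : ∀ v : E2, ‖H77.Dt L S x v‖ ≤ P * ‖v‖ := by
    intro v
    rcases eq_or_ne v 0 with rfl | hv
    · simp
    have hv0 : 0 < ‖v‖ := norm_pos_iff.2 hv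
    have h3 := h1 (‖v‖⁻¹ • v) (by rw [norm_smul, norm_inv, norm_norm, inv_mul_cancel₀ hv0.ne'])
    rw [map_smul, norm_smul, norm_inv, norm_norm, inv_mul_le_iff₀ hv0] at h3
    linarith
  have hfin : finrank ℝ E2 = n + 1 := by
    rw [finrank_euclideanSpace, Fintype.card_fin, hn]
  intro v w hv hw
  have h3 := abs_det_le hfin h2 w
  rw [hw, mul_one] at h3
  have h4 : D₁ * Real.exp (A.h * S) ≤ P ^ n * ‖H77.Dt L S x w‖ := (hdet S x).1.trans h3
  have h5 : P * (P ^ n) ^ 2 < (D₁ * Real.exp (A.h * S)) ^ 2 := by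
    have h5 := hT₀' S hS2
    have h6 : Real.log (P ^ (2 * n + 1)) < Real.log ((D₁ * Real.exp (A.h * S)) ^ 2) := by
      rw [Real.log_pow, Real.log_pow, hP, Real.log_mul hC0.ne' (Real.exp_pos _).ne', Real.log_exp,
        Real.log_mul hD₁.ne' (Real.exp_pos _).ne', Real.log_exp]
      have h7 : (Dim.m : ℝ) = n + 1 := by rw [hn]; push_cast; ring
      rw [h7] at h5
      push_cast
      nlinarith
    have h7 := (Real.log_lt_log_iff (pow_pos hPp _)
      (pow_pos (mul_pos hD₁ (Real.exp_pos _)) 2)).1 h6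
    calc P * (P ^ n) ^ 2 = P ^ (2 * n + 1) := by rw [← pow_mul]; ring
      _ < _ := h7
  have h6 : (D₁ * Real.exp (A.h * S)) ^ 2 ≤ (P ^ n) ^ 2 * ‖H77.Dt L S x w‖ ^ 2 := by
    rw [← mul_pow]
    exact pow_le_pow_left₀ (mul_pos hD₁ (Real.exp_pos _)).le h4 2
  have h7 : (P ^ n) ^ 2 * P < (P ^ n) ^ 2 * ‖H77.Dt L S x w‖ ^ 2 := by
    calc (P ^ n) ^ 2 * P = P * (P ^ n) ^ 2 := mul_comm _ _
      _ < _ := h5
      _ ≤ _ := h6
  exact (h1 v hv).trans_lt (lt_of_mul_lt_mul_left h7 (by positivity))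

end Vale.Agent.P207.SPH.H453.Av
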