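import Mathlib

/-!
# P207, SPH: the least value of `√(u · K u)` over the unit vectors
-/

open Matrix MeasureTheory Set Filter Topology

noncomputable section

namespace Vale.Agent.P207.SPH.H453

variable {m : ℕ}

/-- the least value of `√(u · K u)` over the unit vectors -/
def kap (K : Matrix (Fin m) (Fin m) ℝ) : ℝ :=
  sInf {x | ∃ u : Fin m → ℝ, u ⬝ᵥ u = 1 ∧ x = Real.sqrt (u ⬝ᵥ (K *ᵥ u))}

theorem kap_nonneg (K : Matrix (Fin m) (Fin m) ℝ) : 0 ≤ kap K := by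
  refine Real.sInf_nonneg ?_
  rintro _ ⟨u, -, rfl⟩
  exact Real.sqrt_nonneg _

theorem kap_le (K : Matrix (Fin m) (Fin m) ℝ) {u : Fin m → ℝ} (hu : u ⬝ᵥ u = 1) :
    kap K ≤ Real.sqrt (u ⬝ᵥ (K *ᵥ u)) := by
  refine csInf_le ⟨0, ?_⟩ ⟨u, hu, rfl⟩
  rintro _ ⟨u, -, rfl⟩
  exact Real.sqrt_nonneg _

/-- `kap² |v|² ≤ v · K v` -/
theorem kap_sq_mul_le {K : Matrix (Fin m) (Fin m) ℝ} (hK : ∀ x, 0 ≤ x ⬝ᵥ (K *ᵥ x))
    (v : Fin m → ℝ) : kap K ^ 2 * (v ⬝ᵥ v) ≤ v ⬝ᵥ (K *ᵥ v) := by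
  rcases eq_or_ne v 0 with rfl | hv
  · simp
  have h0 : 0 < v ⬝ᵥ v := by
    have := Matrix.dotProduct_star_self_pos_iff (v := v) |>.2 hv
    simpa using this
  set n := v ⬝ᵥ v with hn
  set c := (Real.sqrt n)⁻¹ with hc
  have hc2 : c * c * n = 1 := by
    have h1 := Real.mul_self_sqrt h0.le
    have h2 : 0 < Real.sqrt n := Real.sqrt_pos.2 h0
    rw [hc]
    field_simp
    nlinarith
  have h1 : (c • v) ⬝ᵥ (c • v) = 1 := by
    rw [smul_dotProduct, dotProduct_smul, smul_eq_mul, smul_eq_mul, ← mul_assoc]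
    exact hc2
  have h2 := kap_le K h1
  have h3 := pow_le_pow_left₀ (kap_nonneg K) h2 2
  rw [Real.sq_sqrt (hK _), Matrix.mulVec_smul, smul_dotProduct, dotProduct_smul, smul_eq_mul,
    smul_eq_mul, ← mul_assoc] at h3
  calc kap K ^ 2 * n ≤ c * c * (v ⬝ᵥ (K *ᵥ v)) * n := mul_le_mul_of_nonneg_right h3 h0.le
    _ = (c * c * n) * (v ⬝ᵥ (K *ᵥ v)) := by ring
    _ = _ := by rw [hc2, one_mul]

theorem isCompact_unit (m : ℕ) : IsCompact {u : Fin m → ℝ | u ⬝ᵥ u = 1} := by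
  have hc : Continuous fun u : Fin m → ℝ => u ⬝ᵥ u := continuous_id.dotProduct continuous_id
  refine Metric.isCompact_of_isClosed_isBounded (isClosed_eq hc continuous_const) ?_
  refine (Metric.isBounded_closedBall (x := (0 : Fin m → ℝ)) (r := 1)).subset fun u hu => ?_
  rw [mem_closedBall_zero_iff, pi_norm_le_iff_of_nonneg zero_le_one]
  intro i
  have h1 : u i * u i ≤ u ⬝ᵥ u :=
    Finset.single_le_sum (f := fun l => u l * u l) (fun l _ => mul_self_nonneg (u l))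
      (Finset.mem_univ i)
  have h2 : u ⬝ᵥ u = 1 := hu
  rw [h2] at h1
  rw [Real.norm_eq_abs, abs_le_one_iff_mul_self_le_one]
  exact h1

theorem continuous_kap : Continuous (kap (m := m)) := by
  have h1 : (kap (m := m)) = fun K => sInf ((fun u : Fin m → ℝ =>
      Real.sqrt (u ⬝ᵥ (K *ᵥ u))) '' {u : Fin m → ℝ | u ⬝ᵥ u = 1}) := by
    funext K
    unfold kap
    congr 1
    ext x
    constructor
    · rintro ⟨O, hO, rfl⟩
      exact ⟨O, hO, rfl⟩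
    · rintro ⟨O, hO, rfl⟩
      exact ⟨O, hO, rfl⟩
  rw [h1]
  refine (isCompact_unit m).continuous_sInf
    (f := fun (K : Matrix (Fin m) (Fin m) ℝ) (u : Fin m → ℝ) => Real.sqrt (u ⬝ᵥ (K *ᵥ u))) ?_
  have h2 : Continuous fun p : Matrix (Fin m) (Fin m) ℝ × (Fin m → ℝ) =>
      p.2 ⬝ᵥ (p.1 *ᵥ p.2) :=
    continuous_snd.dotProduct (continuous_fst.matrix_mulVec continuous_snd)
  exact Real.continuous_sqrt.comp h2

/-- the greatest value of `u · K u` over the unit vectors -/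
def topq (K : Matrix (Fin m) (Fin m) ℝ) : ℝ :=
  sSup {x | ∃ u : Fin m → ℝ, u ⬝ᵥ u = 1 ∧ x = u ⬝ᵥ (K *ᵥ u)}

theorem topq_eq (K : Matrix (Fin m) (Fin m) ℝ) :
    topq K = sSup ((fun u : Fin m → ℝ => u ⬝ᵥ (K *ᵥ u)) '' {u : Fin m → ℝ | u ⬝ᵥ u = 1}) := by
  unfold topq
  congr 1
  ext x
  constructor
  · rintro ⟨O, hO, rfl⟩
    exact ⟨O, hO, rfl⟩
  · rintro ⟨O, hO, rfl⟩
    exact ⟨O, hO, rfl⟩

theorem le_topq (K : Matrix (Fin m) (Fin m) ℝ) {u : Fin m → ℝ} (hu : u ⬝ᵥ u = 1) :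
    u ⬝ᵥ (K *ᵥ u) ≤ topq K := by
  rw [topq_eq]
  have hc : Continuous fun u : Fin m → ℝ => u ⬝ᵥ (K *ᵥ u) :=
    continuous_id.dotProduct (continuous_const.matrix_mulVec continuous_id)
  exact le_csSup ((isCompact_unit m).image hc).bddAbove ⟨u, hu, rfl⟩

/-- `v · K v ≤ topq |v|²` -/
theorem le_topq_mul (K : Matrix (Fin m) (Fin m) ℝ) (v : Fin m → ℝ) :
    v ⬝ᵥ (K *ᵥ v) ≤ topq K * (v ⬝ᵥ v) := by
  rcases eq_or_ne v 0 with rfl | hv
  · simp
  have h0 : 0 < v ⬝ᵥ v := by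
    have := Matrix.dotProduct_star_self_pos_iff (v := v) |>.2 hv
    simpa using this
  set n := v ⬝ᵥ v with hn
  set c := (Real.sqrt n)⁻¹ with hc
  have hc2 : c * c * n = 1 := by
    have h1 := Real.mul_self_sqrt h0.le
    have h2 : 0 < Real.sqrt n := Real.sqrt_pos.2 h0
    rw [hc]
    field_simp
    nlinarith
  have h1 : (c • v) ⬝ᵥ (c • v) = 1 := by
    rw [smul_dotProduct, dotProduct_smul, smul_eq_mul, smul_eq_mul, ← mul_assoc]
    exact hc2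
  have h3 := le_topq K h1
  rw [Matrix.mulVec_smul, smul_dotProduct, dotProduct_smul, smul_eq_mul,
    smul_eq_mul, ← mul_assoc] at h3
  calc v ⬝ᵥ (K *ᵥ v) = (c * c * n) * (v ⬝ᵥ (K *ᵥ v)) := by rw [hc2, one_mul]
    _ = c * c * (v ⬝ᵥ (K *ᵥ v)) * n := by ring
    _ ≤ _ := mul_le_mul_of_nonneg_right h3 h0.le

theorem continuous_topq : Continuous (topq (m := m)) := by
  have h1 : (topq (m := m)) = fun K => sSup ((fun u : Fin m → ℝ =>
      u ⬝ᵥ (K *ᵥ u)) '' {u : Fin m → ℝ | u ⬝ᵥ u = 1}) := funext topq_eq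
  rw [h1]
  refine (isCompact_unit m).continuous_sSup
    (f := fun (K : Matrix (Fin m) (Fin m) ℝ) (u : Fin m → ℝ) => u ⬝ᵥ (K *ᵥ u)) ?_
  exact continuous_snd.dotProduct (continuous_fst.matrix_mulVec continuous_snd)

end Vale.Agent.P207.SPH.H453
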