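import Vale.Agent.P207.SPH.H453.BwGeo
import Vale.Agent.P207.SPH.H453.Kap
import Vale.Agent.P207.SPH.PubK

/-!
# P207, SPH: `leastCurv` in frames
-/

open scoped Manifold ContDiff ENNReal Topology Matrix
open Bundle MeasureTheory Set Filter

set_option maxSynthPendingDepth 3
set_option linter.unusedSectionVars false

noncomputable section

namespace Vale.Agent.P207.SPH.H453

open Vale.Agent.P255 (RMetric innerAt coefIn Gam Riem IsGeo)
open Vale.Agent.P207 Vale.Agent.P207.Q Vale.Agent.P207.Q.H130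
open Vale.Agent.P207.Q.H717 (secc)

variable {m : ℕ} {M : Type} [TopologicalSpace M] [ChartedSpace (EV (m + 1)) M]
  [IsManifold 𝓘(ℝ, EV (m + 1)) ∞ M] [CompactSpace M] [T2Space M] {g : RMetric (EV (m + 1)) M}

/-- **`leastCurv` in frames** -/
theorem leastCurv_frame (f : Fr g) : P207F.leastCurv g (f.ut 0) = kap (Km g f) := by
  have hsec : ∀ u : Fin m → ℝ, coefIn g f.pt (chartAt (EV (m + 1)) f.pt f.pt)
      (Riem (coefIn g f.pt) (chartAt (EV (m + 1)) f.pt f.pt)
        (∑ l : Fin m, u l • f.e l.succ : EV (m + 1)) (f.e 0) (f.e 0))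
        (∑ l : Fin m, u l • f.e l.succ : EV (m + 1)) = -(u ⬝ᵥ (Km g f *ᵥ u)) := by
    intro u
    have h1 := H832.N4.Km_quad f u
    rw [h1, neg_neg]
    rfl
  unfold P207F.leastCurv kap
  congr 1
  ext x
  constructor
  · rintro ⟨w, hw1, hw2, hx⟩
    set u : Fin m → ℝ := fun j => innerB g f.pt w (f.e j.succ) with hu
    have hexp : w = ∑ j : Fin m, u j • f.e j.succ := expand_perp f w (by
        rw [← coefIn_pt]
        exact hw2)
    refine ⟨u, ?_, ?_⟩
    · have h : coefIn g f.pt (chartAt (EV (m + 1)) f.pt f.pt) w w = 1 := hw1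
      rw [coefIn_pt, hexp, inner_comb] at h
      exact h
    · rw [hx]
      have h := hsec u
      rw [← hexp] at h
      exact (congrArg (fun y : ℝ => Real.sqrt (-y)) h).trans
        (congrArg Real.sqrt (neg_neg _))
  · rintro ⟨u, hu, hx⟩
    refine ⟨∑ l : Fin m, u l • f.e l.succ, ?_, ?_, ?_⟩
    · rw [← hu]
      exact (coefIn_pt f _ _).trans (inner_comb f _ _)
    · exact (coefIn_pt f _ _).trans (H832.N4.inner_sum_zero f u)
    · rw [hx]
      exact ((congrArg (fun y : ℝ => Real.sqrt (-y)) (hsec u)).trans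
        (congrArg Real.sqrt (neg_neg _))).symm

/-- **`topCurv` in frames** -/
theorem topCurv_frame (f : Fr g) : P207F.topCurv g (f.ut 0) = topq (Km g f) := by
  have hsec : ∀ u : Fin m → ℝ, coefIn g f.pt (chartAt (EV (m + 1)) f.pt f.pt)
      (Riem (coefIn g f.pt) (chartAt (EV (m + 1)) f.pt f.pt)
        (∑ l : Fin m, u l • f.e l.succ : EV (m + 1)) (f.e 0) (f.e 0))
        (∑ l : Fin m, u l • f.e l.succ : EV (m + 1)) = -(u ⬝ᵥ (Km g f *ᵥ u)) := by
    intro u
    have h1 := H832.N4.Km_quad f u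
    rw [h1, neg_neg]
    rfl
  unfold P207F.topCurv topq
  congr 1
  ext x
  constructor
  · rintro ⟨w, hw1, hw2, hx⟩
    set u : Fin m → ℝ := fun j => innerB g f.pt w (f.e j.succ) with hu
    have hexp : w = ∑ j : Fin m, u j • f.e j.succ := expand_perp f w (by
        rw [← coefIn_pt]
        exact hw2)
    refine ⟨u, ?_, ?_⟩
    · have h : coefIn g f.pt (chartAt (EV (m + 1)) f.pt f.pt) w w = 1 := hw1
      rw [coefIn_pt, hexp, inner_comb] at h
      exact h
    · rw [hx]
      have h := hsec u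
      rw [← hexp] at h
      exact (congrArg (fun y : ℝ => -y) h).trans (neg_neg _)
  · rintro ⟨u, hu, hx⟩
    refine ⟨∑ l : Fin m, u l • f.e l.succ, ?_, ?_, ?_⟩
    · rw [← hu]
      exact (coefIn_pt f _ _).trans (inner_comb f _ _)
    · exact (coefIn_pt f _ _).trans (H832.N4.inner_sum_zero f u)
    · rw [hx]
      exact ((congrArg (fun y : ℝ => -y) (hsec u)).trans (neg_neg _)).symm

end Vale.Agent.P207.SPH.H453
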