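import Vale.Agent.P207.N4.H248.CoreB
import Vale.Agent.P207.SPH.H453.AvT
import Vale.Agent.P207.SPH.H453.KapGeo

/-!
# P207: constant curvature from the logic, for averages along each geodesic

`core_of_avg` : in frames. `avg_core_of` : for `AvgPinched`, from `LogicB`.
-/

open scoped Manifold ContDiff ENNReal Topology Matrix
open Bundle MeasureTheory Set Filter

set_option maxSynthPendingDepth 3
set_option linter.unusedSectionVars false

noncomputable section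

namespace Vale.Agent.P207.N4

open Vale.Agent.P207.N3

variable [Dim]

open Vale.Agent.P255 (RMetric Npc coefIn Gam Riem)
open Vale.Agent.P207.N4.Q Vale.Agent.P207.Q Vale.Agent.P207.Q.H130 Vale.Agent.P207.Q.H892
open Vale.Agent.P207F (ConstCurvature)
open H465 (Deck PB Mt toMt ofMt Xt homeoMt)
open H156 (geoA Dk fl co jA)
open H607 (geoInL rieA)
open Vale.Agent.P207.SPH.H453 (kap kap_sq_mul_le continuous_kap topq le_topq_mul continuous_topq)
open Vale.Agent.P207.N4.H376.Ric (tq)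

section Frames

variable {M : Type} [TopologicalSpace M] [ChartedSpace (EV (Dim.m + 1)) M]
  [IsManifold 𝓘(ℝ, EV (Dim.m + 1)) ∞ M] {g : RMetric (EV (Dim.m + 1)) M}

variable {Γ X B : Type} [Group Γ] [MetricSpace X] [ProperSpace X] [MulAction Γ X]
  [IsIsometricSMul Γ X] [TopologicalSpace B] [CompactSpace B] [T2Space B] [MulAction Γ B]
  [ContinuousConstSMul Γ B] [MeasurableSpace B] [BorelSpace B]

/-- bunching along one orbit from the averages in the frames -/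
theorem each_of_frames {L : Leaf Γ X B} (K : Metr L) (A : Area L) {F : X → Fr g}
    {Φ : ℝ → Fr g → Fr g} (hF : ∀ t x, F (L.φ t x) = Φ t (F x))
    (hK : ∀ x (v : E2), -inner ℝ (K.K x v) v = v.ofLp ⬝ᵥ (Km g (F x) *ᵥ v.ofLp))
    {a b : ℝ} (ha : 0 < a) (hlo : ∀ x v, a * ‖v‖ ^ 2 ≤ inner ℝ (K.U x v) v)
    (hhi : ∀ x v, inner ℝ (K.U x v) v ≤ b * ‖v‖ ^ 2) (x : X)
    (hcK : Continuous fun s => Km g (Φ s (F x)))
    (hb : ∀ s (y : Fin Dim.m → ℝ), 0 ≤ y ⬝ᵥ (Km g (Φ s (F x)) *ᵥ y))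
    (hA : (∃ c : ℝ, (5 * (Dim.m : ℝ) - 1) * c < 5 * A.h ^ 2 ∧
        ∃ᶠ T : ℝ in atTop, ∫ s in (0 : ℝ)..T, (Km g (Φ s (F x))).trace ≤ c * T) ∨
      (∃ c : ℝ, A.h < ((Dim.m : ℝ) + 1) * c ∧
        ∃ᶠ T : ℝ in atTop, c * T ≤ ∫ s in (0 : ℝ)..T, kap (Km g (Φ s (F x)))) ∨
      (∃ c : ℝ, 0 < c ∧ (2 * (Dim.m : ℝ) - 1) * c < 2 * A.h ∧
        ∃ᶠ T : ℝ in atTop, ∫ s in (0 : ℝ)..T, topq (Km g (Φ s (F x))) ≤ c ^ 2 * T)) :
    ∃ S : ℝ, 0 < S ∧ ∀ v w : E2, ‖v‖ = 1 → ‖w‖ = 1 →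
      ‖H77.Dt L S x v‖ < ‖H77.Dt L S x w‖ ^ 2 := by
  have hn : ∀ v : E2, ‖v‖ ^ 2 = v.ofLp ⬝ᵥ v.ofLp := fun v => by
    rw [← real_inner_self_eq_norm_sq, H618.inner_eq_dot]
  have hKs : ∀ s (v : E2), -inner ℝ (K.K (L.φ s x) v) v =
      v.ofLp ⬝ᵥ (Km g (Φ s (F x)) *ᵥ v.ofLp) := fun s v => by
    rw [← hF]
    exact hK _ v
  rcases hA with ⟨c, hc1, hc2⟩ | ⟨c, hc1, hc2⟩ | ⟨c, hc0, hc1, hc2⟩
  · have htq : ∀ s, -tq (K.K (L.φ s x)) = (Km g (Φ s (F x))).trace := by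
      intro s
      unfold H376.Ric.tq
      rw [← Finset.sum_neg_distrib]
      refine Finset.sum_congr rfl fun i _ => ?_
      have h1 := hKs s (EuclideanSpace.basisFun (Fin Dim.m) ℝ i)
      rw [real_inner_comm, h1]
      simp
    have h1 : Continuous fun s => tq (K.K (L.φ s x)) := by
      have h2 : (fun s => tq (K.K (L.φ s x))) = fun s => -(Km g (Φ s (F x))).trace := by
        funext s
        rw [← htq s, neg_neg]
      rw [h2]
      exact hcK.matrix_trace.neg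
    refine SPH.H453.Av.each_of_ric K A x h1 (ρ := c) ?_ hc1
    simp only [htq]
    exact hc2
  · refine SPH.H453.Av.each_of_kap K A ha hlo hhi x
      (κ := fun s => kap (Km g (Φ s (F x)))) (continuous_kap.comp hcK) (fun s v => ?_) hc2 hc1
    rw [hKs, hn]
    exact kap_sq_mul_le (hb s) _
  · refine SPH.H453.Av.each_of_top K A x
      (β := fun s => topq (Km g (Φ s (F x)))) (continuous_topq.comp hcK)
      (fun s v => ?_) (fun s v => ?_) hc0 hc2 hc1
    · rw [hKs]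
      exact hb s _
    · rw [hKs, hn]
      exact le_topq_mul _ _

end Frames

section Suit

variable {M : Type} [TopologicalSpace M] [ChartedSpace (EV (Dim.m + 1)) M]
  [IsManifold 𝓘(ℝ, EV (Dim.m + 1)) ∞ M]
  [CompactSpace M] [T2Space M] [ConnectedSpace M] {g : RMetric (EV (Dim.m + 1)) M} [Nonempty (Fr g)]
  {hN : NegCurvature g} {m : M} {I : (geoA hN m).In3 (jA (npc_of_neg hN) m)} {r₀ t₁ χ : ℝ}
  (hc : H76.Geo.Cst I r₀ t₁ χ) (o : Mt (sys g (npc_of_neg hN)) m)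
  {D : MDat g ((horFlows g).Φ 0)}
  (C : H618.Conn (geoInL hc (rieA hN m) o) (ukL hc o D).U)

include C in
/-- **all the structures at one base point**, with the entropy, the frame map and the Jacobi
operator -/
theorem exists_suiteV {h : ℝ} (hh : 0 < h) (R : RDat D h)
    (hX : GeoX (geoInL hc (rieA hN m) o))
    (hO : ∀ S : Suite (hc.leaf o) (EV (Dim.m + 1)), S.A.h = h → H618.Conn S.I S.M.U →
      (∀ x v, D.lam * ‖v‖ ^ 2 ≤ inner ℝ (S.M.U x v) v) →
      (∀ x v, inner ℝ (S.M.U x v) v ≤ D.Lam * ‖v‖ ^ 2) →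
      H248J.FrM D S.M (frm (h := npc_of_neg hN) (m := m)) →
      (∀ (x : Xt g (npc_of_neg hN) m) (v : E2),
        -inner ℝ (S.M.K x v) v = v.ofLp ⬝ᵥ (Km g (frm x) *ᵥ v.ofLp)) →
      H662.Calib (hc.leaf o) S.A → NuB S.A) :
    Nonempty (BSuite D R ((sys g (npc_of_neg hN)).e m (ofMt _ _ o)) (Dk (npc_of_neg hN) m)
      (Xt g (npc_of_neg hN) m) ((geoA hN m).Bnd o)) := by
  obtain ⟨A, hAh, hAs⟩ := exists_areaL hc o C hh R
  obtain ⟨f, hf⟩ := H892.exists_frame g ((sys g (npc_of_neg hN)).e m (ofMt _ _ o))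
  set x₀ : Xt g (npc_of_neg hN) m := PB.mk (ofMt _ _ o) f hf.symm with hx₀
  have hft : (geoA hN m).ft x₀ = o := rfl
  have hU : ∀ x, C.metr.U x = H618.cl (D.U (frm x)) := fun x => rfl
  have hcal : H662.Calib (hc.leaf o) A :=
    H709.calibR (geoInL hc (rieA hN m) o) (over_leaf hc o) R hU C.metr_hess hAs
      (D_le_of hX A) (b_base hc o hft)
  have hFr : H248J.FrM D (suiteOf hc o C R hX A hAs x₀).M (frm (h := npc_of_neg hN) (m := m)) :=
    ⟨(horFlows g).hor 0, (over_leaf hc o).flow, hU⟩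
  refine ⟨⟨hc.leaf o, A, hAh, hO (suiteOf hc o C R hX A hAs x₀) hAh C (metr_lo hc o C)
    (metr_hi hc o C) hFr (metr_K_dot hc o C) hcal, ?_⟩⟩
  have h1 := H546.mass_le ((horFlows g).hor 0) (over_leaf hc o) (geoInL hc (rieA hN m) o) R hU
    C.metr_hess hAs (link_frm hc o) (b_base hc o hft)
  have h2 : (frm x₀).pt = (sys g (npc_of_neg hN)).e m (ofMt _ _ o) := hf
  rw [h2] at h1
  rwa [two_pow_sphm]

end Suit

variable {M : Type} [TopologicalSpace M] [ChartedSpace (EV (Dim.m + 1)) M]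
  [IsManifold 𝓘(ℝ, EV (Dim.m + 1)) ∞ M]
  [CompactSpace M] [T2Space M] [ConnectedSpace M] {g : RMetric (EV (Dim.m + 1)) M}

/-- **the top, from the logic only**, with the entropy, the frame map and the Jacobi operator -/
theorem core_of_caseV [Nonempty (Fr g)] [MeasurableSpace M] [BorelSpace M]
    (hN : NegCurvature g) {φ : ℝ → UT g → UT g} (hφ : IsGeoFlow g φ) {μ : Measure M}
    {m : Measure (UT g)} (hμ : IsRiemVol g μ) (hm : IsLiouville g μ m)
    (heq : ksEntropy m (φ 1) = topEntropy (φ 1)) (D : MDat g ((horFlows g).Φ 0))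
    (hO : ∀ (m₀ : M) (F : Full hN D m₀)
      (o : Mt (sys g (npc_of_neg hN)) m₀) (S : Suite (F.hc.leaf o) (EV (Dim.m + 1))),
        S.A.h = (topEntropy (φ 1)).toReal → H618.Conn S.I S.M.U →
        (∀ x v, D.lam * ‖v‖ ^ 2 ≤ inner ℝ (S.M.U x v) v) →
        (∀ x v, inner ℝ (S.M.U x v) v ≤ D.Lam * ‖v‖ ^ 2) →
        H248J.FrM D S.M (frm (h := npc_of_neg hN) (m := m₀)) →
        (∀ (x : Xt g (npc_of_neg hN) m₀) (v : E2),
          -inner ℝ (S.M.K x v) v = v.ofLp ⬝ᵥ (Km g (frm x) *ᵥ v.ofLp)) →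
        H662.Calib (F.hc.leaf o) S.A → NuB S.A) :
    ∃ κ, ConstCurvature g κ := by
  refine core_of_bounds hN hφ hμ hm heq D ?_ (fun R p => ?_)
  · obtain ⟨f⟩ := ‹Nonempty (Fr g)›
    obtain ⟨F⟩ := exists_full hN D f.pt
    obtain ⟨ν₀, -, h⟩ := H348.hopfAC_model hN f.pt F.hc
      (toMt (sys g (npc_of_neg hN)) f.pt 0) D hφ hμ hm
    exact F.exists_rdat hφ hμ hm heq _ h
  · obtain ⟨F⟩ := exists_full hN D p
    have hh := (exists_psi_N3 ((horFlows g).hor 0) D hN hφ hμ hm heq).1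
    obtain ⟨S⟩ := exists_suiteV F.hc (toMt (sys g (npc_of_neg hN)) p 0) (F.C _) hh R (F.X _)
      (hO p F _)
    have h1 := S.bound
    have h2 : (sys g (npc_of_neg hN)).e p (ofMt _ _ (toMt (sys g (npc_of_neg hN)) p 0)) = p :=
      (sys g (npc_of_neg hN)).zero p
    rwa [h2] at h1

/-- **Core** for averages along each orbit, in frames, from the logic, in the dimension
`Dim.m + 1`. -/
theorem core_of_avg (hL : LogicB) [MeasurableSpace M] [BorelSpace M]
    (g : RMetric (EV (Dim.m + 1)) M) (hN : NegCurvature g)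
    (φ : ℝ → P207.UT g → P207.UT g) (μ : Measure M) (m : Measure (P207.UT g))
    (hφ : P207.IsGeoFlow g φ) (hμ : P207.IsRiemVol g μ) (hm : P207.IsLiouville g μ m)
    (heq : P207.ksEntropy m (φ 1) = P207.topEntropy (φ 1))
    (hA : 0 < (P207.topEntropy (φ 1)).toReal → ∀ Φ : ℝ → Fr g → Fr g,
      IsHorFlow g (Pi.single 0 1) Φ → ∀ f : Fr g,
      (∃ c : ℝ, (5 * (Dim.m : ℝ) - 1) * c < 5 * (P207.topEntropy (φ 1)).toReal ^ 2 ∧
        ∃ᶠ T : ℝ in atTop, ∫ s in (0 : ℝ)..T, (Km g (Φ s f)).trace ≤ c * T) ∨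
      (∃ c : ℝ, (P207.topEntropy (φ 1)).toReal < ((Dim.m : ℝ) + 1) * c ∧
        ∃ᶠ T : ℝ in atTop, c * T ≤ ∫ s in (0 : ℝ)..T, kap (Km g (Φ s f))) ∨
      (∃ c : ℝ, 0 < c ∧ (2 * (Dim.m : ℝ) - 1) * c < 2 * (P207.topEntropy (φ 1)).toReal ∧
        ∃ᶠ T : ℝ in atTop, ∫ s in (0 : ℝ)..T, topq (Km g (Φ s f)) ≤ c ^ 2 * T)) :
    ∃ κ, ConstCurvature g κ := by
  obtain ⟨hsc, hne, -⟩ := Vale.Agent.P207.H582.exists_setting hφ hμ hm
  obtain ⟨lam, Lam, hl, hle, hb⟩ :=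
    Vale.Agent.P207.H832.N4.exists_Km_neg (P207F.negCurvature_iff.2 hN)
  obtain ⟨D, hD1, hD2⟩ := exists_MDat_of hl hle hb hφ
  have hh := (exists_psi_N3 ((horFlows g).hor 0) D hN hφ hμ hm heq).1
  have hcK : ∀ f : Fr g, Continuous fun s => Km g ((horFlows g).Φ 0 s f) := fun f =>
    Vale.Agent.P207.H832.N4.continuous_KmM.comp
      (((horFlows g).hor 0).continuous.comp (Continuous.prodMk_left f))
  have hb' : ∀ (f : Fr g) (y : Fin Dim.m → ℝ), 0 ≤ y ⬝ᵥ (Km g f *ᵥ y) := fun f y =>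
    (mul_nonneg (sq_nonneg lam)
      (Finset.sum_nonneg fun i _ => mul_self_nonneg (y i))).trans (hb f y).1
  have hA' := hA hh _ ((horFlows g).hor 0)
  refine core_of_caseV hN hφ hμ hm heq D (fun m₀ F o S hSh hC hlo hhi hFr hK hcal => ?_)
  rw [hD1] at hlo
  rw [hD2] at hhi
  rw [← hSh] at hA'
  exact hL _ S hC lam Lam hl hle hlo hhi (H709.bunM_of_each S.M hl hlo hhi fun x =>
    each_of_frames S.M S.A hFr.flow hK hl hlo hhi x (hcK _) (fun s => hb' _) (hA' _)) hcal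

end Vale.Agent.P207.N4

namespace Vale.Agent.P207F.Ray

open Vale.Agent.P255 (RMetric coefIn Gam Riem)
open Vale.Agent.P207F
open Vale.Agent.P207.N4 (Dim LogicB)
open Vale.Agent.P207.Q (Fr IsHorFlow)

theorem avg_core_dim [Dim] (hL : LogicB) {M : Type} [TopologicalSpace M]
    [ChartedSpace (EV (Dim.m + 1)) M] [IsManifold 𝓘(ℝ, EV (Dim.m + 1)) ∞ M] [CompactSpace M]
    [T2Space M] [ConnectedSpace M] [MeasurableSpace M] [BorelSpace M]
    (g : RMetric (EV (Dim.m + 1)) M) (hN : NegCurvature g) (h : AvgPinched g)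
    (φ : ℝ → P207.UT g → P207.UT g) (μ : Measure M) (m : Measure (P207.UT g))
    (hφ : P207.IsGeoFlow g φ) (hμ : P207.IsRiemVol g μ) (hm : P207.IsLiouville g μ m)
    (heq : P207.ksEntropy m (φ 1) = P207.topEntropy (φ 1)) : ∃ κ, ConstCurvature g κ := by
  have hW := wellDefined (n := Dim.m + 1) (by have := Dim.two_le; omega) g
  have h1 : φ = geoFlow g := (hW.1 φ).1 hφ
  have hμ' : μ = vol (stdB (Dim.m + 1)) g := (hW.2.1 μ).1 hμ
  have hm' : m = liou (stdB (Dim.m + 1)) g := (hW.2.2 m).1 (by rw [← hμ']; exact hm)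
  have h4 : hTop g = P207.topEntropy (φ 1) := by rw [h1]; rfl
  have h5 : hLiou (stdB (Dim.m + 1)) g = P207.topEntropy (φ 1) := by
    rw [← heq, h1, hm']; rfl
  have hgf : P207.IsGeoFlow g (geoFlow g) := (hW.1 _).2 rfl
  refine P207.N4.core_of_avg hL g (negCurvature_iff.1 hN) φ μ m hφ hμ hm heq
    fun h0 Φ hΦ f => ?_
  set t := P207.topEntropy (φ 1) with ht
  have htop : t ≠ ⊤ := by
    intro h
    rw [h] at h0
    simp at h0
  have hut : ∀ s, geoFlow g s (f.ut 0) = (Φ s f).ut 0 := fun s => (hΦ.ut_eq hgf s f).symm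
  rcases h (f.ut 0) with ⟨c, hc1, hc2⟩ | ⟨c, hc0, hc1, hc2⟩ | ⟨c, hc0, hc1, hc2⟩
  · refine Or.inl ⟨c, ?_, ?_⟩
    · rw [h4] at hc1
      have h3 : 5 * t ^ 2 = ENNReal.ofReal (5 * t.toReal ^ 2) := by
        rw [ENNReal.ofReal_mul (by norm_num), ENNReal.ofReal_pow ENNReal.toReal_nonneg,
          ENNReal.ofReal_toReal htop]
        norm_num
      rw [h3, ENNReal.ofReal_lt_ofReal_iff (by positivity)] at hc1
      push_cast at hc1
      linarith
    · refine hc2.mono fun T hT => ?_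
      have h6 : ∀ s, -ricUT g (geoFlow g s (f.ut 0)) =
          (P207.Q.H130.Km g (Φ s f)).trace := fun s => by
        rw [hut, P207.N4.ricUT_eq, neg_neg]
      simp only [h6] at hT
      exact hT
  · refine Or.inr (Or.inl ⟨c, ?_, ?_⟩)
    · rw [h5] at hc1
      have h3 : t = ENNReal.ofReal t.toReal := (ENNReal.ofReal_toReal htop).symm
      have h7 : (0 : ℝ) < ((Dim.m + 1 : ℕ) : ℝ) * c := mul_pos (by positivity) hc0
      rw [h3, ENNReal.ofReal_lt_ofReal_iff h7] at hc1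
      push_cast at hc1
      exact hc1
    · refine hc2.mono fun T hT => ?_
      have h6 : ∀ s, leastCurv g (geoFlow g s (f.ut 0)) =
          P207.SPH.H453.kap (P207.Q.H130.Km g (Φ s f)) := fun s => by
        rw [hut, P207.SPH.H453.leastCurv_frame]
      simp only [h6] at hT
      exact hT
  · refine Or.inr (Or.inr ⟨c, hc0, ?_, ?_⟩)
    · rw [h4] at hc1
      have h3 : 2 * t = ENNReal.ofReal (2 * t.toReal) := by
        rw [ENNReal.ofReal_mul (by norm_num), ENNReal.ofReal_toReal htop]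
        norm_num
      rw [h3, ENNReal.ofReal_lt_ofReal_iff (by positivity)] at hc1
      push_cast at hc1
      linarith
    · refine hc2.mono fun T hT => ?_
      have h6 : ∀ s, topCurv g (geoFlow g s (f.ut 0)) =
          P207.SPH.H453.topq (P207.Q.H130.Km g (Φ s f)) := fun s => by
        rw [hut, P207.SPH.H453.topCurv_frame]
      simp only [h6] at hT
      exact hT

/-- **Core** for `AvgPinched`, from the logic, in all dimensions `n ≥ 3`. -/
theorem avg_core_of {n : ℕ} (hn : 3 ≤ n) (hL : ∀ [Dim], LogicB)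
    {M : Type} [TopologicalSpace M] [ChartedSpace (EV n) M]
    [IsManifold 𝓘(ℝ, EV n) ∞ M] [CompactSpace M] [T2Space M] [ConnectedSpace M]
    [MeasurableSpace M] [BorelSpace M] (g : RMetric (EV n) M) (hN : NegCurvature g)
    (h : AvgPinched g)
    (φ : ℝ → P207.UT g → P207.UT g) (μ : Measure M) (m : Measure (P207.UT g))
    (hφ : P207.IsGeoFlow g φ) (hμ : P207.IsRiemVol g μ) (hm : P207.IsLiouville g μ m)
    (heq : P207.ksEntropy m (φ 1) = P207.topEntropy (φ 1)) : ∃ κ, ConstCurvature g κ := by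
  obtain ⟨k, rfl⟩ : ∃ k, n = k + 1 := ⟨n - 1, by omega⟩
  have h2 : 2 ≤ k := by omega
  exact @avg_core_dim (Dim.mk k h2) (@hL (Dim.mk k h2)) M _ _ _ _ _ _ _ _ g hN h φ μ m
    hφ hμ hm heq

end Vale.Agent.P207F.Ray
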