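import Vale.Agent.P207.N4.H376.RicE
import Vale.Agent.P207.N4.H709.DetR
import Vale.Agent.P207.N4.H709.BunE

/-!
# P207: bunching along one orbit from averages of the curvature

`each_of_ric` : if `(5 m - 1) ρ < 5 h²` and the average of `-Ric` along the orbit is at most `ρ` for
arbitrarily large times, then the unstable derivative is bunched at some time. `each_of_kap` : the
same if `h < (m + 1) k` and the average of the square root of the least curvature is at least `k`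
for arbitrarily large times.
-/

open Module Set Filter Topology Metric MeasureTheory
open scoped ContDiff

noncomputable section

namespace Vale.Agent.P207.SPH.H453.Av

open Vale.Agent.P207.N3 Vale.Agent.P207.N4 Vale.Agent.P207.N4.H709 Vale.Agent.P207.N4.H376.Ric

variable [Dim]

variable {Γ X B : Type} [Group Γ] [MetricSpace X] [ProperSpace X] [MulAction Γ X]
  [IsIsometricSMul Γ X] [TopologicalSpace B] [CompactSpace B] [T2Space B] [MulAction Γ B]
  [ContinuousConstSMul Γ B]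

variable {L : Leaf Γ X B}

/-- the growth of the unstable Jacobi fields from the least curvature along the orbit -/
theorem exp_le_Dt (M : Metr L) {a b : ℝ} (ha : 0 < a)
    (hlo : ∀ x v, a * ‖v‖ ^ 2 ≤ inner ℝ (M.U x v) v)
    (hhi : ∀ x v, inner ℝ (M.U x v) v ≤ b * ‖v‖ ^ 2) (x : X) {κ : ℝ → ℝ} (hκc : Continuous κ)
    (hκ : ∀ s v, κ s ^ 2 * ‖v‖ ^ 2 ≤ -inner ℝ (M.K (L.φ s x) v) v) {T : ℝ} (hT : 0 ≤ T) {v : E2}
    (hv : ‖v‖ = 1) :
    a * Real.exp (2 * ∫ s in (0 : ℝ)..T, κ s) ≤ b * ‖H77.Dt L T x v‖ ^ 2 := by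
  have hd : ∀ s, HasDerivAt (fun s => H77.Dt L s x v) (M.U (L.φ s x) (H77.Dt L s x v)) s :=
    fun s => (ContinuousLinearMap.apply ℝ E2 v).hasFDerivAt.comp_hasDerivAt s
      (H77.hasDerivAt_Dt M x s)
  have hUd : ∀ s, HasDerivAt (fun s => M.U (L.φ s x) (H77.Dt L s x v))
      (-(M.K (L.φ s x) (H77.Dt L s x v))) s := by
    intro s
    refine ((M.riccati x s).clm_apply (hd s)).congr_deriv ?_
    simp only [sub_apply, neg_apply, ContinuousLinearMap.comp_apply]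
    abel
  have hn : ∀ s, 0 < ‖H77.Dt L s x v‖ := fun s => norm_Dt_vec_pos (L := L) s x hv
  set p : ℝ → ℝ := fun s => inner ℝ (M.U (L.φ s x) (H77.Dt L s x v)) (H77.Dt L s x v) with hp
  have hpd : ∀ s, HasDerivAt p (‖M.U (L.φ s x) (H77.Dt L s x v)‖ ^ 2 -
      inner ℝ (M.K (L.φ s x) (H77.Dt L s x v)) (H77.Dt L s x v)) s := by
    intro s
    refine ((hUd s).inner ℝ (hd s)).congr_deriv ?_
    rw [real_inner_self_eq_norm_sq, inner_neg_left]
    ring
  have hp0 : ∀ s, 0 < p s := fun s =>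
    lt_of_lt_of_le (mul_pos ha (pow_pos (hn s) 2)) (hlo _ _)
  have hG : ∀ s, HasDerivAt (fun s => Real.log (p s) - 2 * ∫ r in (0 : ℝ)..s, κ r)
      ((‖M.U (L.φ s x) (H77.Dt L s x v)‖ ^ 2 -
        inner ℝ (M.K (L.φ s x) (H77.Dt L s x v)) (H77.Dt L s x v)) / p s - 2 * κ s) s := fun s =>
    ((hpd s).log (hp0 s).ne').sub ((hκc.integral_hasStrictDerivAt 0 s).hasDerivAt.const_mul 2)
  have hmono : Monotone fun s => Real.log (p s) - 2 * ∫ r in (0 : ℝ)..s, κ r := by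
    refine monotone_of_deriv_nonneg (fun s => (hG s).differentiableAt) fun s => ?_
    rw [(hG s).deriv, sub_nonneg, le_div_iff₀ (hp0 s)]
    have h1 := hκ s (H77.Dt L s x v)
    have h2 : p s ≤ ‖M.U (L.φ s x) (H77.Dt L s x v)‖ * ‖H77.Dt L s x v‖ :=
      real_inner_le_norm _ _
    set A := ‖M.U (L.φ s x) (H77.Dt L s x v)‖ with hA
    set B' := ‖H77.Dt L s x v‖ with hB
    have h3 : κ s * p s ≤ |κ s| * (A * B') :=
      (mul_le_mul_of_nonneg_right (le_abs_self _) (hp0 s).le).trans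
        (mul_le_mul_of_nonneg_left h2 (abs_nonneg _))
    have h4 : 0 ≤ (A - |κ s| * B') ^ 2 := sq_nonneg _
    have h5 : |κ s| ^ 2 = κ s ^ 2 := sq_abs _
    nlinarith
  have h1 := hmono hT
  simp only [intervalIntegral.integral_same, mul_zero, sub_zero] at h1
  have h2 : p 0 * Real.exp (2 * ∫ s in (0 : ℝ)..T, κ s) ≤ p T := by
    have h3 := Real.exp_le_exp.2 h1
    rw [Real.exp_log (hp0 0), Real.exp_sub, Real.exp_log (hp0 T),
      le_div_iff₀ (Real.exp_pos _)] at h3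
    exact h3
  have h3 : a ≤ p 0 := by
    have h4 := hlo (L.φ 0 x) (H77.Dt L 0 x v)
    have h5 : ‖H77.Dt L 0 x v‖ = 1 := by
      rw [H77.Dt_zero, ContinuousLinearMap.id_apply, hv]
    rw [h5, one_pow, mul_one] at h4
    exact h4
  calc a * Real.exp (2 * ∫ s in (0 : ℝ)..T, κ s)
      ≤ p 0 * Real.exp (2 * ∫ s in (0 : ℝ)..T, κ s) :=
        mul_le_mul_of_nonneg_right h3 (Real.exp_pos _).le
    _ ≤ p T := h2
    _ ≤ _ := hhi _ _

variable [MeasurableSpace B] [BorelSpace B]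

/-- **bunching along one orbit from the average of the least curvature** -/
theorem each_of_kap (M : Metr L) (A : Area L) {a b : ℝ} (ha : 0 < a)
    (hlo : ∀ x v, a * ‖v‖ ^ 2 ≤ inner ℝ (M.U x v) v)
    (hhi : ∀ x v, inner ℝ (M.U x v) v ≤ b * ‖v‖ ^ 2) (x : X) {κ : ℝ → ℝ} (hκc : Continuous κ)
    (hκ : ∀ s v, κ s ^ 2 * ‖v‖ ^ 2 ≤ -inner ℝ (M.K (L.φ s x) v) v) {k : ℝ}
    (hk : ∃ᶠ T in atTop, k * T ≤ ∫ s in (0 : ℝ)..T, κ s)
    (hQ : A.h < ((Dim.m : ℝ) + 1) * k) :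
    ∃ S : ℝ, 0 < S ∧ ∀ v w : E2, ‖v‖ = 1 → ‖w‖ = 1 →
      ‖H77.Dt L S x v‖ < ‖H77.Dt L S x w‖ ^ 2 := by
  obtain ⟨D₁, D₂, hD₁, hD₂, hdet⟩ := det_bounds A
  obtain ⟨n, hn⟩ : ∃ n, Dim.m = n + 1 := ⟨Dim.m - 1, by have := Dim.two_le; omega⟩
  obtain ⟨e, he⟩ : ∃ e : E2, ‖e‖ = 1 := by
    obtain ⟨v, hv⟩ := exists_ne (0 : E2)
    exact ⟨‖v‖⁻¹ • v, by rw [norm_smul, norm_inv, norm_norm,
      inv_mul_cancel₀ (norm_ne_zero_iff.2 hv)]⟩
  have hb : 0 < b := by
    have h1 := (hlo x e).trans (hhi x e)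
    rw [he] at h1
    linarith
  set c₀ : ℝ := Real.sqrt (a / b) with hc₀
  have hc0 : 0 < c₀ := Real.sqrt_pos.2 (div_pos ha hb)
  have hc2 : c₀ ^ 2 = a / b := Real.sq_sqrt (div_pos ha hb).le
  obtain ⟨T₀, hT₀, hT₀'⟩ := exists_lin (Real.log D₂ - (n + 2) * Real.log c₀ + 1)
    (show 0 < ((Dim.m : ℝ) + 1) * k - A.h by linarith)
  obtain ⟨S, hS1, hS2⟩ := (hk.and_eventually (eventually_ge_atTop T₀)).exists
  have hS0 : 0 < S := hT₀.trans_le hS2
  refine ⟨S, hS0, ?_⟩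
  set c : ℝ := c₀ * Real.exp (k * S) with hc
  have hcp : 0 < c := mul_pos hc0 (Real.exp_pos _)
  have h1 : ∀ v : E2, ‖v‖ = 1 → c ≤ ‖H77.Dt L S x v‖ := by
    intro v hv
    have h2 := exp_le_Dt M ha hlo hhi x hκc hκ hS0.le hv
    have h3 : c ^ 2 ≤ ‖H77.Dt L S x v‖ ^ 2 := by
      have h4 : c ^ 2 = a / b * Real.exp (2 * (k * S)) := by
        rw [hc, mul_pow, hc2, ← Real.exp_nat_mul]
        norm_num
      have h5 : Real.exp (2 * (k * S)) ≤ Real.exp (2 * ∫ s in (0 : ℝ)..S, κ s) :=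
        Real.exp_le_exp.2 (by linarith)
      rw [h4, div_mul_eq_mul_div, div_le_iff₀ hb]
      calc a * Real.exp (2 * (k * S)) ≤ a * Real.exp (2 * ∫ s in (0 : ℝ)..S, κ s) :=
            mul_le_mul_of_nonneg_left h5 ha.le
        _ ≤ _ := h2.trans (le_of_eq (mul_comm _ _))
    exact le_of_sq_le_sq h3 (norm_nonneg _)
  have h2 : ∀ v : E2, c * ‖v‖ ≤ ‖H77.Dt L S x v‖ := by
    intro v
    rcases eq_or_ne v 0 with rfl | hv
    · simp
    have hv0 : 0 < ‖v‖ := norm_pos_iff.2 hv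
    have h3 := h1 (‖v‖⁻¹ • v) (by rw [norm_smul, norm_inv, norm_norm, inv_mul_cancel₀ hv0.ne'])
    rw [map_smul, norm_smul, norm_inv, norm_norm, le_inv_mul_iff₀ hv0] at h3
    linarith
  have hfin : finrank ℝ E2 = n + 1 := by
    rw [finrank_euclideanSpace, Fintype.card_fin, hn]
  intro v w hv hw
  have h3 := norm_le_det hfin hcp h2 v
  rw [hv, mul_one] at h3
  have h4 : |(H77.Dt L S x).det| < c ^ n * c ^ 2 := by
    refine (hdet S x).2.trans_lt ?_
    have h5 := hT₀' S hS2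
    have h6 : Real.log D₂ + A.h * S < Real.log (c ^ (n + 2)) := by
      rw [Real.log_pow, hc, Real.log_mul hc0.ne' (Real.exp_pos _).ne', Real.log_exp]
      have h7 : (Dim.m : ℝ) = n + 1 := by rw [hn]; push_cast; ring
      rw [h7] at h5
      push_cast
      nlinarith
    have h7 := Real.exp_lt_exp.2 h6
    rw [Real.exp_add, Real.exp_log hD₂, Real.exp_log (pow_pos hcp _), pow_add] at h7
    exact h7
  have h5 : ‖H77.Dt L S x v‖ < c ^ 2 :=
    lt_of_mul_lt_mul_left (h3.trans_lt h4) (pow_pos hcp n).le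
  exact h5.trans_le (pow_le_pow_left₀ hcp.le (h1 w hw) 2)

/-- **bunching along one orbit from the average of the Ricci curvature** -/
theorem each_of_ric (M : Metr L) (A : Area L) {ρ : ℝ} (x : X)
    (hcK : Continuous fun s => tq (M.K (L.φ s x)))
    (hρ : ∃ᶠ T in atTop, ∫ s in (0 : ℝ)..T, -tq (M.K (L.φ s x)) ≤ ρ * T)
    (hQ : (5 * (Dim.m : ℝ) - 1) * ρ < 5 * A.h ^ 2) :
    ∃ S : ℝ, 0 < S ∧ ∀ v w : E2, ‖v‖ = 1 → ‖w‖ = 1 →
      ‖H77.Dt L S x v‖ < ‖H77.Dt L S x w‖ ^ 2 := by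
  obtain ⟨D₁, D₂, hD₁, hD₂, hdet⟩ := det_bounds A
  obtain ⟨K, hK, hUK⟩ := exists_U_norm M
  have hh := A.h_pos
  have hm : (2 : ℝ) ≤ Dim.m := by exact_mod_cast Dim.two_le
  -- a positive bound
  obtain ⟨r, hr0, hρr, hQr⟩ : ∃ r : ℝ, 0 < r ∧ ρ ≤ r ∧ (5 * (Dim.m : ℝ) - 1) * r < 5 * A.h ^ 2 := by
    refine ⟨max ρ (A.h ^ 2 / (5 * Dim.m)), lt_max_of_lt_right (by positivity), le_max_left _ _, ?_⟩
    rcases le_total ρ (A.h ^ 2 / (5 * Dim.m)) with h | h
    · rw [max_eq_right h]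
      have h1 : (5 * (Dim.m : ℝ) - 1) * (A.h ^ 2 / (5 * Dim.m)) ≤
          (5 * (Dim.m : ℝ)) * (A.h ^ 2 / (5 * Dim.m)) :=
        mul_le_mul_of_nonneg_right (by linarith) (by positivity)
      have h2 : (5 * (Dim.m : ℝ)) * (A.h ^ 2 / (5 * Dim.m)) = A.h ^ 2 := by
        field_simp
      nlinarith
    · rwa [max_eq_left h]
  set A₀ : ℝ := 5 * A.h / (2 * r) with hA₀
  have hA0 : 0 < A₀ := by positivity
  set c : ℝ := 5 * (5 * Dim.m - 1) / (4 * A₀) with hc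
  have hc5 : A₀ * r + c < 5 * A.h := by
    have h1 : A₀ * r = 5 * A.h / 2 := by rw [hA₀]; field_simp
    have h2 : 5 * (5 * (Dim.m : ℝ) - 1) / (4 * A₀) = (5 * Dim.m - 1) * r / (2 * A.h) := by
      rw [hA₀]; field_simp; ring
    have h3 : (5 * (Dim.m : ℝ) - 1) * r / (2 * A.h) < 5 * A.h / 2 := by
      rw [div_lt_iff₀ (by positivity)]
      nlinarith
    rw [hc, h1, h2]
    linarith
  have hdet0 : ∀ s x, (H77.Dt L s x).det ≠ 0 := fun s x h => by
    have h1 := (hdet s x).1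
    rw [h, abs_zero] at h1
    have : 0 < D₁ * Real.exp (A.h * s) := by positivity
    linarith
  -- the function
  have key : ∀ (v w : E2), ‖v‖ = 1 → ‖w‖ = 1 → ∀ S, 0 ≤ S →
      Real.log ‖H77.Dt L S x v‖ - 2 * Real.log ‖H77.Dt L S x w‖ +
        5 * Real.log (H77.Dt L S x).det + A₀ * tq (M.U (L.φ S x)) - c * S -
        A₀ * ∫ s in (0 : ℝ)..S, -tq (M.K (L.φ s x)) ≤ A₀ * tq (M.U x) := by
    intro v w hv hw S hS
    have hder : ∀ s, HasDerivAt (fun s => Real.log ‖H77.Dt L s x v‖ -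
        2 * Real.log ‖H77.Dt L s x w‖ + 5 * Real.log (H77.Dt L s x).det +
        A₀ * tq (M.U (L.φ s x)) - c * s - A₀ * ∫ r in (0 : ℝ)..s, -tq (M.K (L.φ r x)))
        (inner ℝ (M.U (L.φ s x) (‖H77.Dt L s x v‖⁻¹ • H77.Dt L s x v))
          (‖H77.Dt L s x v‖⁻¹ • H77.Dt L s x v) -
        2 * inner ℝ (M.U (L.φ s x) (‖H77.Dt L s x w‖⁻¹ • H77.Dt L s x w))
          (‖H77.Dt L s x w‖⁻¹ • H77.Dt L s x w) + 5 * tq (M.U (L.φ s x)) +
        A₀ * tq (-(M.U (L.φ s x) ∘L M.U (L.φ s x)) - M.K (L.φ s x)) - c * 1 -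
        A₀ * (-tq (M.K (L.φ s x)))) s := by
      intro s
      have h1 := hasDerivAt_log M x hv s
      have h2 := (hasDerivAt_log M x hw s).const_mul 2
      have h3 : HasDerivAt (fun s => 5 * Real.log (H77.Dt L s x).det)
          (5 * tq (M.U (L.φ s x))) s := by
        have h4 := P207.H147.DetD.hasDerivAt_det_left (H77.hasDerivAt_Dt M x s)
        have h5 := (h4.log (hdet0 s x)).const_mul 5
        refine h5.congr_deriv ?_
        rw [mul_div_assoc, div_self (hdet0 s x), mul_one, tr_eq]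
      have h4 := (hasDerivAt_tq (M.riccati x s)).const_mul A₀
      have h5 : HasDerivAt (fun s => A₀ * ∫ r in (0 : ℝ)..s, -tq (M.K (L.φ r x)))
          (A₀ * (-tq (M.K (L.φ s x)))) s :=
        (hcK.neg.integral_hasStrictDerivAt 0 s).hasDerivAt.const_mul A₀
      exact ((((h1.sub h2).add h3).add h4).sub ((hasDerivAt_id s).const_mul c)).sub h5
    have hanti := antitone_of_deriv_nonpos (f := fun s => Real.log ‖H77.Dt L s x v‖ -
        2 * Real.log ‖H77.Dt L s x w‖ + 5 * Real.log (H77.Dt L s x).det +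
        A₀ * tq (M.U (L.φ s x)) - c * s - A₀ * ∫ r in (0 : ℝ)..s, -tq (M.K (L.φ r x)))
        (fun s => (hder s).differentiableAt) fun s => by
      rw [(hder s).deriv]
      have hu : ∀ y : E2, 0 < ‖y‖ → ‖‖y‖⁻¹ • y‖ = 1 := fun y hy => by
        rw [norm_smul, norm_inv, norm_norm, inv_mul_cancel₀ hy.ne']
      have h1 := op_le (EuclideanSpace.basisFun (Fin Dim.m) ℝ) (M.U_symm (L.φ s x))
        (hu _ (norm_Dt_vec_pos (L := L) s x hv)) (hu _ (norm_Dt_vec_pos (L := L) s x hw)) hA0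
      have h2 : tq (-(M.U (L.φ s x) ∘L M.U (L.φ s x)) - M.K (L.φ s x)) =
          -(tq (M.U (L.φ s x) ∘L M.U (L.φ s x))) - tq (M.K (L.φ s x)) := by
        rw [tq_sub, tq_neg]
      have h3 : tq (M.U (L.φ s x) ∘L M.U (L.φ s x)) =
          ∑ i, inner ℝ (EuclideanSpace.basisFun (Fin Dim.m) ℝ i) (M.U (L.φ s x)
            (M.U (L.φ s x) (EuclideanSpace.basisFun (Fin Dim.m) ℝ i))) := rfl
      have h4 : tq (M.U (L.φ s x)) = ∑ i, inner ℝ (EuclideanSpace.basisFun (Fin Dim.m) ℝ i)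
          (M.U (L.φ s x) (EuclideanSpace.basisFun (Fin Dim.m) ℝ i)) := rfl
      rw [← h3, ← h4] at h1
      rw [h2, hc]
      linarith
    have h1 := hanti hS
    simp only [H77.Dt_zero, L.φ_zero, ContinuousLinearMap.id_apply, hv, hw, Real.log_one,
      intervalIntegral.integral_same] at h1
    have h2 : (ContinuousLinearMap.id ℝ E2).det = 1 := by
      rw [ContinuousLinearMap.det, ContinuousLinearMap.coe_id, LinearMap.det_id]
    rw [h2, Real.log_one] at h1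
    linarith
  obtain ⟨T₀, hT₀, hT₀'⟩ := exists_lin (2 * (A₀ * (Dim.m * K)) - 5 * Real.log D₁ + 1)
    (show 0 < 5 * A.h - (A₀ * r + c) by linarith)
  obtain ⟨S, hS1, hS2⟩ := (hρ.and_eventually (eventually_ge_atTop T₀)).exists
  have hS : 0 < S := hT₀.trans_le hS2
  refine ⟨S, hS, fun v w hv hw => ?_⟩
  have h1 := key v w hv hw S hS.le
  have h2 := hT₀' S hS2
  have h8 : A₀ * ∫ s in (0 : ℝ)..S, -tq (M.K (L.φ s x)) ≤ A₀ * (r * S) :=
    mul_le_mul_of_nonneg_left (hS1.trans (mul_le_mul_of_nonneg_right hρr hS.le)) hA0.le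
  have h3 : Real.log D₁ + A.h * S ≤ Real.log (H77.Dt L S x).det := by
    have h4 := Real.log_le_log (by positivity) (hdet S x).1
    rw [Real.log_mul hD₁.ne' (Real.exp_pos _).ne', Real.log_exp, Real.log_abs] at h4
    exact h4
  have hb : ∀ y, |tq (M.U y)| ≤ Dim.m * K := fun y =>
    (tq_le _).trans (mul_le_mul_of_nonneg_left (hUK y) (by positivity))
  have h4 : A₀ * tq (M.U x) ≤ A₀ * (Dim.m * K) :=
    mul_le_mul_of_nonneg_left ((le_abs_self _).trans (hb x)) hA0.le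
  have h5 : -(A₀ * (Dim.m * K)) ≤ A₀ * tq (M.U (L.φ S x)) := by
    rw [← mul_neg]
    exact mul_le_mul_of_nonneg_left (neg_le.1 ((neg_le_abs _).trans (hb _))) hA0.le
  have h6 : Real.log ‖H77.Dt L S x v‖ < 2 * Real.log ‖H77.Dt L S x w‖ := by linarith
  have h7 := Real.exp_lt_exp.2 h6
  rw [Real.exp_log (norm_Dt_vec_pos S x hv), two_mul, Real.exp_add,
    Real.exp_log (norm_Dt_vec_pos S x hw), ← sq] at h7
  exact h7

end Vale.Agent.P207.SPH.H453.Av
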