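import Vale.Agent.P207.SPH.H453.AvCore
import Vale.Agent.P207.H566N.FinalN

/-!
# P207: averages along each geodesic, the final statement from the logic
-/

open scoped Manifold ContDiff ENNReal
open Bundle MeasureTheory Set Filter Topology

noncomputable section

namespace Vale.Agent.P207F.Ray

open Vale.Agent.P255 (RMetric)
open Vale.Agent.P207F
open Vale.Agent.P207.N4 (Dim LogicB)

/-- **the statement for `AvgPinched`**, from the logic -/
theorem avg_final {n : ℕ} (hn : 3 ≤ n) (hL : ∀ [Dim], LogicB) {M : Type} [TopologicalSpace M]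
    [ChartedSpace (EV n) M] [IsManifold 𝓘(ℝ, EV n) ∞ M] [CompactSpace M] [T2Space M]
    [ConnectedSpace M] [MeasurableSpace M] [BorelSpace M] :
    (∀ g : RMetric (EV n) M, WellDefined (stdB n) g) ∧
    ∀ g : RMetric (EV n) M, NegCurvature g → AvgPinched g →
      hLiou (stdB n) g ≤ hTop g ∧
      (hLiou (stdB n) g = hTop g ↔ LocSymmetric g) ∧
      (hLiou (stdB n) g = hTop g ↔ ∃ κ : ℝ, 0 < κ ∧ ConstCurvature g κ) := by
  obtain ⟨h1, h2⟩ := QN.final_n (M := M) (by omega : 2 ≤ n)
    (P := fun g => NegCurvature g ∧ AvgPinched g)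
    (fun _ h => h.1) (fun g h φ μ m hφ hμ hm heq =>
      avg_core_of hn (fun {_} => hL) g h.1 h.2 φ μ m hφ hμ hm heq)
  exact ⟨h1, fun g hN hA => (h2 g ⟨hN, hA⟩).2⟩

end Vale.Agent.P207F.Ray
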